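import Vale.Agent.P287Z.Gr.Defs
import Mathlib.CategoryTheory.Limits.FunctorCategory.EpiMono
import Mathlib.RingTheory.Polynomial.Basic
import Mathlib.RingTheory.PrincipalIdealDomain

/-!
# Finitely generated graded `A`-modules are closed under submodules, quotients, finite products
-/

set_option autoImplicit false

open CategoryTheory Limits MvPolynomial

namespace Vale.Agent.P287Z.Gr

variable {ν : ℕ}


section gen

variable (M : (GrS ν))

/-- the span of the translates of a family of homogeneous elements -/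
def gsp {ι : Type} (d : ι → ℤ) (g : ∀ k, M.obj ⟨d k⟩) (b : ℤ) : Submodule ℂ (M.obj ⟨b⟩) :=
  Submodule.span ℂ {w | ∃ (i : ι) (m : (⟨d i⟩ : (Dg ν)) ⟶ ⟨b⟩), M.map m (g i) = w}

variable {M}

lemma gsp_map {ι : Type} (d : ι → ℤ) (g : ∀ k, M.obj ⟨d k⟩) {a b : ℤ} (u : (⟨a⟩ : (Dg ν)) ⟶ ⟨b⟩)
    {x : M.obj ⟨a⟩} (hx : x ∈ gsp M d g a) : M.map u x ∈ gsp M d g b := by
  have : gsp M d g a ≤ (gsp M d g b).comap (M.map u).hom := by
    refine Submodule.span_le.2 ?_
    rintro _ ⟨k, v, rfl⟩
    refine Submodule.subset_span ⟨k, v ≫ u, ?_⟩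
    simp
  exact this hx

lemma fg_of_finite {ι : Type} [Finite ι] (d : ι → ℤ) (g : ∀ k, M.obj ⟨d k⟩)
    (h : ∀ j, gsp M d g j = ⊤) : fg M := by
  obtain ⟨n, ⟨e⟩⟩ := Finite.exists_equiv_fin ι
  refine ⟨n, d ∘ e.symm, fun k => g (e.symm k), fun j v => ?_⟩
  have hv : v ∈ gsp M d g j := by rw [h j]; trivial
  refine (Submodule.span_le (p := Submodule.span ℂ _)).2 ?_ hv
  rintro _ ⟨k, v, rfl⟩
  obtain ⟨k, rfl⟩ := e.symm.surjective k
  exact Submodule.subset_span ⟨k, v, rfl⟩

lemma app_surjective {M N : (GrS ν)} (f : M ⟶ N) [Epi f] (j : (Dg ν)) : Function.Surjective (f.app j) := by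
  rw [← ModuleCat.epi_iff_surjective]
  exact (NatTrans.epi_iff_epi_app f).1 inferInstance j

lemma app_injective {M N : (GrS ν)} (f : M ⟶ N) [Mono f] (j : (Dg ν)) : Function.Injective (f.app j) := by
  rw [← ModuleCat.mono_iff_injective]
  exact (NatTrans.mono_iff_mono_app f).1 inferInstance j

lemma fg_of_epi {N : (GrS ν)} (f : M ⟶ N) [Epi f] (h : fg M) : fg N := by
  obtain ⟨r, d, g, hg⟩ := h
  refine ⟨r, d, fun k => f.app _ (g k), fun j y => ?_⟩
  obtain ⟨x, rfl⟩ := app_surjective f ⟨j⟩ y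
  have hx : x ∈ gsp M d g j := hg j x
  have : gsp M d g j ≤ (Submodule.span ℂ {w : N.obj ⟨j⟩ | ∃ (i : Fin r) (m : (⟨d i⟩ : (Dg ν)) ⟶ ⟨j⟩),
      N.map m (f.app _ (g i)) = w}).comap (f.app ⟨j⟩).hom := by
    refine Submodule.span_le.2 ?_
    rintro _ ⟨k, v, rfl⟩
    refine Submodule.subset_span ⟨k, v, ?_⟩
    exact (NatTrans.naturality_apply f v (g k)).symm
  exact this hx

end gen

section noeth

variable (M : (GrS ν))

/-- the action of a monomial on a homogeneous element, seen in degree `j` -/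
noncomputable def mo {i : ℤ} (x : M.obj ⟨i⟩) (j : ℤ) (m : Fin ν →₀ ℕ) : M.obj ⟨j⟩ :=
  if h : i + (m.degree : ℤ) = j then M.map (⟨m, h⟩ : (⟨i⟩ : (Dg ν)) ⟶ ⟨j⟩) x else 0

/-- `f ↦ (f x)_j` -/
noncomputable def ev {i : ℤ} (x : M.obj ⟨i⟩) (j : ℤ) : (Sn ν) →ₗ[ℂ] M.obj ⟨j⟩ :=
  (MvPolynomial.basisMonomials (Fin ν) ℂ).constr ℂ (mo M x j)

lemma ev_monomial {i : ℤ} (x : M.obj ⟨i⟩) (j : ℤ) (m : Fin ν →₀ ℕ) (c : ℂ) :
    ev M x j (monomial m c) = c • mo M x j m := by
  have h1 : (monomial m c : (Sn ν)) = c • MvPolynomial.basisMonomials (Fin ν) ℂ m := by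
    simp [MvPolynomial.smul_monomial]
  rw [h1, map_smul, ev, Module.Basis.constr_basis]

lemma act_apply {i j : ℤ} (f : (Sn ν)) (x : M.obj ⟨i⟩) : act M f i j x = ev M x j f := by
  conv_rhs => rw [f.as_sum, map_sum]
  have h1 : act M f i j x = ∑ m ∈ f.support, (if h : i + (m.degree : ℤ) = j then
      f.coeff m • M.map (⟨m, h⟩ : (⟨i⟩ : (Dg ν)) ⟶ ⟨j⟩) else 0) x := by
    rw [act]
    change (ModuleCat.Hom.hom _) x = _
    rw [ModuleCat.hom_sum, LinearMap.sum_apply]
  rw [h1]
  refine Finset.sum_congr rfl fun m _ => ?_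
  rw [ev_monomial, mo]
  split_ifs with h
  · rfl
  · rw [smul_zero]
    rfl

/-- multiplication by a monomial -/
noncomputable def Dg.mul (j : ℤ) (m : Fin ν →₀ ℕ) : (⟨j - m.degree⟩ : (Dg ν)) ⟶ ⟨j⟩ := ⟨m, by simp⟩

lemma mo_add {i : ℤ} (x : M.obj ⟨i⟩) (j : ℤ) (m m' : Fin ν →₀ ℕ) :
    mo M x j (m' + m) = M.map (Dg.mul j m) (mo M x (j - m.degree) m') := by
  unfold mo
  by_cases h : i + ((m' + m).degree : ℤ) = j
  · have h' : i + (m'.degree : ℤ) = j - m.degree := by
      rw [map_add] at h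
      push_cast at h
      linarith
    rw [dif_pos h, dif_pos h']
    have h3 : (⟨m' + m, h⟩ : (⟨i⟩ : (Dg ν)) ⟶ ⟨j⟩) =
      (⟨m', h'⟩ : (⟨i⟩ : (Dg ν)) ⟶ ⟨j - m.degree⟩) ≫ Dg.mul j m := rfl
    rw [h3]
    simp
  · have h' : ¬ i + (m'.degree : ℤ) = j - m.degree := by
      intro h'
      apply h
      rw [map_add]
      push_cast
      linarith
    rw [dif_neg h, dif_neg h', map_zero]

lemma ev_monomial_mul {i : ℤ} (x : M.obj ⟨i⟩) (j : ℤ) (m : Fin ν →₀ ℕ) (c : ℂ) (f : (Sn ν)) :
    ev M x j (monomial m c * f) = c • M.map (Dg.mul j m) (ev M x (j - m.degree) f) := by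
  induction f using MvPolynomial.induction_on' with
  | monomial m' a =>
    rw [MvPolynomial.monomial_mul, ev_monomial, ev_monomial, add_comm, mo_add, map_smul, smul_smul]
  | add p q hp hq => rw [mul_add, map_add, hp, hq, map_add, map_add, smul_add]

end noeth

/-- graded submodules of finitely generated graded modules are finitely generated -/
lemma fg_of_mono {M N : (GrS ν)} (f : N ⟶ M) [Mono f] (h : fg M) : fg N := by
  obtain ⟨r, d, g, hg⟩ := h
  have hinj : ∀ j, Function.Injective (f.app j) := fun j => app_injective f j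
  -- evaluation on tuples
  let E : ∀ j : ℤ, (Fin r → (Sn ν)) →ₗ[ℂ] M.obj ⟨j⟩ := fun j =>
    ∑ k, (ev M (g k) j).comp (LinearMap.proj (R := ℂ) k)
  have hE : ∀ (j : ℤ) w, E j w = ∑ k, ev M (g k) j (w k) := fun j w => by simp [E]
  have hEm : ∀ (j : ℤ) (m : Fin ν →₀ ℕ) (c : ℂ) (w : Fin r → (Sn ν)),
      E j ((monomial m c : (Sn ν)) • w) = c • M.map (Dg.mul j m) (E (j - m.degree) w) := by
    intro j m c w
    rw [hE, hE, map_sum, Finset.smul_sum]
    refine Finset.sum_congr rfl fun k _ => ?_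
    rw [Pi.smul_apply, smul_eq_mul, ev_monomial_mul]
  have hmap : ∀ {i j : (Dg ν)} (u : i ⟶ j) (z : N.obj i), M.map u (f.app i z) = f.app j (N.map u z) :=
    fun u z => (NatTrans.naturality_apply f u z).symm
  -- the preimage of N
  let N' : Submodule (Sn ν) (Fin r → (Sn ν)) :=
    { carrier := {w | ∀ j : ℤ, ∃ z, f.app ⟨j⟩ z = E j w}
      add_mem' := by
        intro a b ha hb j
        obtain ⟨x, hx⟩ := ha j
        obtain ⟨y, hy⟩ := hb j
        exact ⟨x + y, by rw [map_add, map_add, hx, hy]⟩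
      zero_mem' := fun j => ⟨0, by simp⟩
      smul_mem' := by
        intro c w hw
        induction c using MvPolynomial.induction_on' with
        | monomial m a =>
          intro j
          obtain ⟨z, hz⟩ := hw (j - m.degree)
          refine ⟨a • N.map (Dg.mul j m) z, ?_⟩
          rw [hEm, ← hz, hmap, map_smul]
        | add p q hp hq =>
          intro j
          obtain ⟨x, hx⟩ := hp j
          obtain ⟨y, hy⟩ := hq j
          exact ⟨x + y, by rw [add_smul, map_add, map_add, hx, hy]⟩ }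
  have hfg : N'.FG := IsNoetherian.noetherian N'
  obtain ⟨T, hT⟩ := hfg
  -- the degrees that occur
  let J : Finset ℤ := T.biUnion fun v => Finset.univ.biUnion fun k : Fin r =>
    (v k).support.image fun m => d k + (m.degree : ℤ)
  have hJ : ∀ v ∈ T, ∀ j : ℤ, j ∉ J → E j v = 0 := by
    intro v hv j hj
    rw [hE]
    refine Finset.sum_eq_zero fun k _ => ?_
    rw [(v k).as_sum, map_sum]
    refine Finset.sum_eq_zero fun m hm => ?_
    rw [ev_monomial, mo, dif_neg, smul_zero]
    intro h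
    apply hj
    simp only [J, Finset.mem_biUnion, Finset.mem_image, Finset.mem_univ, true_and]
    exact ⟨v, hv, k, m, hm, h⟩
  have hTN : ∀ v : T, ∀ j : ℤ, ∃ z, f.app ⟨j⟩ z = E j v.1 := fun v => by
    have h1 : v.1 ∈ N' := by
      rw [← hT]
      exact Submodule.subset_span v.2
    exact h1
  choose z hz using hTN
  let ι := T × J
  let D : ι → ℤ := fun p => p.2.1
  let G : ∀ p : ι, N.obj ⟨D p⟩ := fun p => z p.1 (D p)
  refine fg_of_finite D G fun j => ?_
  -- elements of N' evaluate into the span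
  have key : ∀ w ∈ N', ∀ j : ℤ, ∃ s ∈ gsp N D G j, f.app ⟨j⟩ s = E j w := by
    intro w hw
    rw [← hT] at hw
    induction hw using Submodule.span_induction with
    | mem v hv =>
      intro j
      by_cases hj : j ∈ J
      · refine ⟨z ⟨v, hv⟩ j, ?_, hz ⟨v, hv⟩ j⟩
        refine Submodule.subset_span ⟨(⟨v, hv⟩, ⟨j, hj⟩), 𝟙 _, ?_⟩
        rw [N.map_id]
        rfl
      · exact ⟨0, Submodule.zero_mem _, by rw [hJ v hv j hj, map_zero]⟩
    | zero => exact fun j => ⟨0, Submodule.zero_mem _, by simp⟩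
    | add x y _ _ hx hy =>
      intro j
      obtain ⟨s, hs, hs'⟩ := hx j
      obtain ⟨t, ht, ht'⟩ := hy j
      exact ⟨s + t, Submodule.add_mem _ hs ht, by rw [map_add, map_add, hs', ht']⟩
    | smul c x _ hx =>
      induction c using MvPolynomial.induction_on' with
      | monomial m a =>
        intro j
        obtain ⟨s, hs, hs'⟩ := hx (j - m.degree)
        refine ⟨a • N.map (Dg.mul j m) s, Submodule.smul_mem _ _ (gsp_map D G _ hs), ?_⟩
        rw [hEm, ← hs', hmap, map_smul]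
      | add p q hp hq =>
        intro j
        obtain ⟨s, hs, hs'⟩ := hp j
        obtain ⟨t, ht, ht'⟩ := hq j
        exact ⟨s + t, Submodule.add_mem _ hs ht, by rw [add_smul, map_add, map_add, hs', ht']⟩
  -- lifting elements of M
  have hlift : ∀ y ∈ gsp M d g j, ∃ w : Fin r → (Sn ν), E j w = y ∧ ∀ j' : ℤ, j' ≠ j → E j' w = 0 := by
    intro y hy
    induction hy using Submodule.span_induction with
    | mem y hy =>
      obtain ⟨k, u, rfl⟩ := hy
      refine ⟨Pi.single k (monomial u.1 1), ?_, fun j' hj' => ?_⟩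
      · rw [hE, Finset.sum_eq_single k]
        · rw [Pi.single_eq_same, ev_monomial, one_smul, mo, dif_pos u.2]
          rfl
        · intro k' _ hk'
          rw [Pi.single_eq_of_ne hk', map_zero]
        · simp
      · rw [hE]
        refine Finset.sum_eq_zero fun k' _ => ?_
        by_cases hk' : k' = k
        · subst hk'
          rw [Pi.single_eq_same, ev_monomial, one_smul, mo, dif_neg]
          have := u.2
          change d k' + _ = j at this
          rw [this]
          exact fun h => hj' h.symm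
        · rw [Pi.single_eq_of_ne hk', map_zero]
    | zero => exact ⟨0, by simp, by simp⟩
    | add x y _ _ hx hy =>
      obtain ⟨w, hw, hw'⟩ := hx
      obtain ⟨v, hv, hv'⟩ := hy
      exact ⟨w + v, by rw [map_add, hw, hv], fun j' hj' => by
        rw [map_add, hw' j' hj', hv' j' hj', add_zero]⟩
    | smul c x _ hx =>
      obtain ⟨w, hw, hw'⟩ := hx
      exact ⟨c • w, by rw [map_smul, hw], fun j' hj' => by rw [map_smul, hw' j' hj', smul_zero]⟩
  rw [eq_top_iff]
  intro y _
  have h1 : f.app ⟨j⟩ y ∈ gsp M d g j := hg j _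
  obtain ⟨w, hw, hw'⟩ := hlift _ h1
  have hwN : w ∈ N' := by
    intro j'
    by_cases h : j' = j
    · subst h
      exact ⟨y, hw.symm⟩
    · exact ⟨0, by rw [hw' j' h, map_zero]⟩
  obtain ⟨s, hs, hs'⟩ := key w hwN j
  rw [hw] at hs'
  rw [← hinj _ hs']
  exact hs

section nat

variable {M N : (GrS ν)} (f : M ⟶ N)

lemma mo_nat {i : ℤ} (x : M.obj ⟨i⟩) (j : ℤ) (m : Fin ν →₀ ℕ) :
    mo N (f.app _ x) j m = f.app _ (mo M x j m) := by
  unfold mo
  split_ifs with h
  · exact (NatTrans.naturality_apply f _ x).symm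
  · rw [map_zero]

lemma ev_nat {i : ℤ} (x : M.obj ⟨i⟩) (j : ℤ) (p : (Sn ν)) :
    ev N (f.app _ x) j p = f.app _ (ev M x j p) := by
  induction p using MvPolynomial.induction_on' with
  | monomial m a => rw [ev_monomial, ev_monomial, mo_nat, map_smul]
  | add p q hp hq => rw [map_add, map_add, hp, hq, map_add]

lemma act_nat (p : (Sn ν)) {i j : ℤ} (x : M.obj ⟨i⟩) :
    act N p i j (f.app _ x) = f.app _ (act M p i j x) := by
  rw [act_apply, act_apply, ev_nat]

end nat

variable {W : Ideal (Sn ν)}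

lemma killed_of_mono {M N : (GrS ν)} (f : N ⟶ M) [Mono f] (h : killed W M) : killed W N := by
  intro p hp i j
  ext x
  apply app_injective f ⟨j⟩
  rw [← act_nat, h p hp]
  simp

lemma killed_of_epi {M N : (GrS ν)} (f : M ⟶ N) [Epi f] (h : killed W M) : killed W N := by
  intro p hp i j
  ext x
  obtain ⟨x, rfl⟩ := app_surjective f ⟨i⟩ x
  rw [act_nat, h p hp]
  simp

instance : (grA W).IsClosedUnderSubobjects where
  prop_of_mono f _ h := ⟨killed_of_mono f h.1, fg_of_mono f h.2⟩

instance : (grA W).IsClosedUnderQuotients where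
  prop_of_epi f _ h := ⟨killed_of_epi f h.1, fg_of_epi f h.2⟩

lemma subsingleton_of_isZero {M : (GrS ν)} (h : IsZero M) (j : (Dg ν)) : Subsingleton (M.obj j) := by
  have : IsZero (M.obj j) := (Functor.isZero_iff M).1 h j
  exact ModuleCat.subsingleton_of_isZero this

instance : (grA W).ContainsZero where
  exists_zero := by
    obtain ⟨Z, hZ⟩ : ∃ Z : (GrS ν), IsZero Z := HasZeroObject.zero
    refine ⟨Z, hZ, fun _ _ i j => ?_, ⟨0, Fin.elim0, fun k => k.elim0, fun j v => ?_⟩⟩
    · ext x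
      have := subsingleton_of_isZero hZ ⟨j⟩
      exact Subsingleton.elim _ _
    · have := subsingleton_of_isZero hZ ⟨j⟩
      rw [Subsingleton.elim v 0]
      exact Submodule.zero_mem _

lemma grA_split {X Y B : (GrS ν)} (i : X ⟶ B) (j : Y ⟶ B) (p : B ⟶ X) (q : B ⟶ Y)
    (h : p ≫ i + q ≫ j = 𝟙 B) (hX : grA W X) (hY : grA W Y) : grA W B := by
  have hh : ∀ (n : (Dg ν)) (y : B.obj n), y = i.app n (p.app n y) + j.app n (q.app n y) := by
    intro n y
    have h1 := congrArg (fun t => t.app n y) h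
    simpa using h1.symm
  refine ⟨fun w hw m n => ?_, ?_⟩
  · ext y
    have h1 : act B w m n y =
        act B w m n (i.app _ (p.app _ y)) + act B w m n (j.app _ (q.app _ y)) := by
      rw [← map_add, ← hh _ y]
    rw [h1, act_nat i, act_nat j, hX.1 w hw, hY.1 w hw]
    simp
  · obtain ⟨r, d, g, hg⟩ := hX.2
    obtain ⟨r', d', g', hg'⟩ := hY.2
    refine fg_of_finite (ι := Fin r ⊕ Fin r') (Sum.elim d d')
      (fun k => match k with
        | .inl k => i.app _ (g k)
        | .inr k => j.app _ (g' k)) fun n => ?_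
    rw [eq_top_iff]
    intro y _
    rw [hh _ y]
    refine Submodule.add_mem _ ?_ ?_
    · have h1 := hg n (p.app _ y)
      have h2 : Submodule.span ℂ {w | ∃ (i : Fin r) (m : (⟨d i⟩ : (Dg ν)) ⟶ ⟨n⟩), X.map m (g i) = w} ≤
          (gsp B (Sum.elim d d') (fun k => match k with
            | .inl k => i.app _ (g k)
            | .inr k => j.app _ (g' k)) n).comap (i.app ⟨n⟩).hom := by
        refine Submodule.span_le.2 ?_
        rintro _ ⟨k, u, rfl⟩
        refine Submodule.subset_span ⟨.inl k, u, ?_⟩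
        exact (NatTrans.naturality_apply i u (g k)).symm
      exact h2 h1
    · have h1 := hg' n (q.app _ y)
      have h2 : Submodule.span ℂ {w | ∃ (i : Fin r') (m : (⟨d' i⟩ : (Dg ν)) ⟶ ⟨n⟩), Y.map m (g' i) = w} ≤
          (gsp B (Sum.elim d d') (fun k => match k with
            | .inl k => i.app _ (g k)
            | .inr k => j.app _ (g' k)) n).comap (j.app ⟨n⟩).hom := by
        refine Submodule.span_le.2 ?_
        rintro _ ⟨k, u, rfl⟩
        refine Submodule.subset_span ⟨.inr k, u, ?_⟩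
        exact (NatTrans.naturality_apply j u (g' k)).symm
      exact h2 h1

instance : (grA W).IsClosedUnderBinaryProducts where
  limitsOfShape_le := by
    rintro B ⟨p⟩
    have e : B ≅ p.diag.obj ⟨.left⟩ ⊞ p.diag.obj ⟨.right⟩ :=
      p.isLimit.conePointUniqueUpToIso (limit.isLimit p.diag) ≪≫
        HasLimit.isoOfNatIso (diagramIsoPair p.diag) ≪≫ (biprod.isoProd _ _).symm
    refine (grA W).prop_of_iso e.symm ?_
    exact grA_split biprod.inl biprod.inr biprod.fst biprod.snd biprod.total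
      (p.prop_diag_obj _) (p.prop_diag_obj _)

instance : (grA W).IsClosedUnderFiniteProducts := ObjectProperty.IsClosedUnderFiniteProducts.mk'

end Vale.Agent.P287Z.Gr

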