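import Vale.Agent.P287Z.Gr.Fr0
import Vale.Agent.P287Z.Gr.B1

/-!
# The twist `M(k)` on graded modules, on `Coh X` and on `D^b(Coh X)`
-/

set_option autoImplicit false

open CategoryTheory Limits MvPolynomial

namespace Vale.Agent.P287Z.Gr

variable {ν : ℕ}

/-- translation of degrees -/
noncomputable def Dg.sh (ν : ℕ) (k : ℤ) : (Dg ν) ⥤ (Dg ν) where
  obj a := ⟨a.deg + k⟩
  map m := ⟨m.1, by rw [add_right_comm, m.2]⟩

/-- objects with the same degree are isomorphic -/
noncomputable def Dg.iso {a b : (Dg ν)} (h : a.deg = b.deg) : a ≅ b where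
  hom := ⟨0, by simpa using h⟩
  inv := ⟨0, by simpa using h.symm⟩
  hom_inv_id := Subtype.ext (add_zero _)
  inv_hom_id := Subtype.ext (add_zero _)

@[simp] lemma Dg.comp_val {a b c : (Dg ν)} (f : a ⟶ b) (g : b ⟶ c) : (f ≫ g).1 = f.1 + g.1 := rfl
@[simp] lemma Dg.id_val (a : (Dg ν)) : (𝟙 a : a ⟶ a).1 = 0 := rfl

/-- translation by `k` and by `-k` are inverse equivalences -/
noncomputable def Dg.shE (ν : ℕ) (k : ℤ) : (Dg ν) ≌ (Dg ν) where
  functor := Dg.sh ν k
  inverse := Dg.sh ν (-k)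
  unitIso := NatIso.ofComponents (fun a => Dg.iso (by simp [Dg.sh]))
    (fun f => Subtype.ext ((add_zero _).trans (zero_add _).symm))
  counitIso := NatIso.ofComponents (fun a => Dg.iso (by simp [Dg.sh]))
    (fun f => Subtype.ext ((add_zero _).trans (zero_add _).symm))
  functor_unitIso_comp a := Subtype.ext (add_zero _)

/-- the twist `M(k)`, `M(k)_a = M_{a+k}`, on graded modules -/
noncomputable def twS (k : ℤ) : (GrS ν) ⥤ (GrS ν) := (Functor.whiskeringLeft _ _ _).obj (Dg.sh ν k)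

@[simp] lemma twS_obj_obj (k : ℤ) (M : (GrS ν)) (a : ℤ) : ((twS k).obj M).obj ⟨a⟩ = M.obj ⟨a + k⟩ := rfl

/-- the twist by `k` as an equivalence of graded modules -/
noncomputable def twSE (k : ℤ) : (GrS ν) ≌ (GrS ν) := ((Dg.shE ν k).congrLeft (E := ModuleCat.{0} ℂ)).symm

instance (k : ℤ) : (twS (ν := ν) k).IsEquivalence :=
  inferInstanceAs (twSE (ν := ν) k).functor.IsEquivalence

/-- `M(k)(-k) ≅ M` -/
noncomputable def twSiso (k : ℤ) (M : (GrS ν)) : (twS k).obj ((twS (-k)).obj M) ≅ M :=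
  (twSE k).counitIso.app M

lemma act_tw (M : (GrS ν)) (f : (Sn ν)) (k a b : ℤ) :
    act ((twS k).obj M) f a b = act M f (a + k) (b + k) := by
  unfold act
  refine Finset.sum_congr rfl fun m _ => ?_
  by_cases h : a + (m.degree : ℤ) = b
  · rw [dif_pos h, dif_pos (by rw [← h]; ring)]
    rfl
  · rw [dif_neg h, dif_neg (fun h' => h (by linarith))]
    rfl

variable {W : Ideal (Sn ν)}

lemma killed_tw {M : (GrS ν)} (h : killed W M) (k : ℤ) : killed W ((twS k).obj M) :=
  fun f hf a b => by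
  rw [act_tw, h f hf]
  rfl

lemma fg_tw {M : (GrS ν)} (h : fg M) (k : ℤ) : fg ((twS k).obj M) := by
  obtain ⟨r, d, g, hg⟩ := h
  let e : ∀ i : Fin r, (⟨d i⟩ : (Dg ν)) ⟶ ⟨d i - k + k⟩ := fun i => ⟨0, by simp⟩
  refine ⟨r, fun i => d i - k, fun i => M.map (e i) (g i), fun b v => ?_⟩
  refine (Submodule.span_le (p := Submodule.span ℂ _)).2 ?_ (hg (b + k) v)
  rintro _ ⟨i, m, rfl⟩
  have hm := m.2
  change d i + (m.1.degree : ℤ) = b + k at hm
  let u : (⟨d i - k + k⟩ : (Dg ν)) ⟶ ⟨b + k⟩ := ⟨m.1, by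
    change d i - k + k + (m.1.degree : ℤ) = b + k
    linarith⟩
  refine Submodule.subset_span ⟨i, ⟨m.1, ?_⟩, ?_⟩
  · change d i - k + (m.1.degree : ℤ) = b
    linarith
  · change M.map u (M.map (e i) (g i)) = M.map m (g i)
    rw [← ModuleCat.comp_apply, ← M.map_comp]
    have h1 : e i ≫ u = m := Subtype.ext (zero_add _)
    rw [h1]

variable (W) in
/-- the twist on finitely generated graded `A`-modules -/
noncomputable def twA (k : ℤ) : GA W ⥤ GA W :=
  (grA W).lift ((grA W).ι ⋙ twS k) fun M => ⟨killed_tw M.property.1 k, fg_tw M.property.2 k⟩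

instance (k : ℤ) : (twS (ν := ν) k).Full := inferInstance
instance (k : ℤ) : ((grA W).ι ⋙ twS k).Full := inferInstance
instance (k : ℤ) : (twA W k).Full :=
  Functor.Full.of_comp_faithful_iso (G := (grA W).ι) (H := (grA W).ι ⋙ twS k) (Iso.refl _)
instance (k : ℤ) : (twA W k).Faithful :=
  Functor.Faithful.of_comp_iso (G := (grA W).ι) (H := (grA W).ι ⋙ twS k) (Iso.refl _)

/-- `M(k)(-k) ≅ M` -/
noncomputable def twAiso (k : ℤ) (M : GA W) : (twA W k).obj ((twA W (-k)).obj M) ≅ M :=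
  ObjectProperty.isoMk _ (twSiso k M.obj)

instance (k : ℤ) : (twA W k).EssSurj where
  mem_essImage M := ⟨(twA W (-k)).obj M, ⟨twAiso k M⟩⟩

instance (k : ℤ) : (twA W k).IsEquivalence where

instance (k : ℤ) : (twS (ν := ν) k).Additive where

instance (k : ℤ) : (twA W k).Additive where
  map_add {X Y f g} := by
    apply ObjectProperty.hom_ext
    rfl

instance (k : ℤ) : (twS (ν := ν) k).Linear ℂ where

instance (k : ℤ) : (twA W k).Linear ℂ where
  map_smul {X Y} f c := by
    apply ObjectProperty.hom_ext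
    rfl

lemma tors_tw {M : GA W} (k : ℤ) (h : tors W M) : tors W ((twA W k).obj M) := by
  obtain ⟨N, hN⟩ := h
  exact ⟨N - k, fun a ha => hN (a + k) (by linarith)⟩

instance (k : ℤ) : PreservesFiniteLimits (twA W k) :=
  PreservesLimitsOfSize.preservesFiniteLimits.{0, 0} (twA W k)

instance (k : ℤ) : PreservesFiniteColimits (twA W k) :=
  PreservesColimitsOfSize.preservesFiniteColimits.{0, 0} (twA W k)

end Vale.Agent.P287Z.Gr
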