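import Vale.Agent.P287Z.Gr.Exist
import Vale.Agent.P294Z.Frac
import Vale.Agent.P294Z.D1
import Vale.Agent.P287Z.Gr.Evi

/-!
# Serre's theorem: coherent sheaves are a localization of finitely generated graded modules
-/

open CategoryTheory Limits AlgebraicGeometry TopologicalSpace Opposite MvPolynomial

namespace Vale.Agent.P287Z.Gr

variable {ν : ℕ}

open Vale.Agent.P294Z Vale.Agent.P294.V

theorem evIso_iff {W : Ideal (Sn ν)} {M N : GA W} (f : M ⟶ N) :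
    evIso W f ↔ ∃ n : ℤ, ∀ a ≥ n, Function.Bijective (f.hom.app ⟨a⟩) := Iff.rfl

namespace Chart

variable {Y : Scheme.{0}} {W : Ideal (Sn ν)} {c : Chart Y W} {E E' : Y.Modules} {M N : (GrS ν)}

theorem IsTilde.inj_large {u : M ⟶ c.G E} (h : c.IsTilde u) (hM : grA W M) :
    ∃ n : ℤ, ∀ a ≥ n, ∀ v, u.app ⟨a⟩ v = 0 → v = 0 := by
  have k (a : ℤ) (v : (kernel u).obj ⟨a⟩) : u.app ⟨a⟩ ((kernel.ι u).app ⟨a⟩ v) = 0 :=
    congr(($(kernel.condition u)).app ⟨a⟩ v)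
  obtain ⟨n, hn⟩ := ev_zero ((grA W).prop_of_mono (kernel.ι u) hM).2 (kernel.ι u)
    fun i a v => h.inj i a _ (by rw [cp_def, k, map_zero])
  refine ⟨n, fun a ha v hv => ?_⟩
  obtain ⟨z, rfl⟩ := exact_apply (ShortComplex.exact_kernel u) a v hv
  exact hn a ha z

theorem IsTilde.surj_large {u : N ⟶ c.G E} (h : c.IsTilde u) (hM : fg M) (w : M ⟶ c.G E) :
    ∃ n : ℤ, ∀ a ≥ n, ∀ v, ∃ y, u.app ⟨a⟩ y = w.app ⟨a⟩ v := by
  have k (a : ℤ) (v : N.obj ⟨a⟩) : (cokernel.π u).app ⟨a⟩ (u.app ⟨a⟩ v) = 0 :=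
    congr(($(cokernel.condition u)).app ⟨a⟩ v)
  obtain ⟨n, hn⟩ := ev_zero hM (w ≫ cokernel.π u) fun i a v => by
    obtain ⟨b, y, hy⟩ := h.surj i (c.cp w i a v)
    rw [← cp_up _ i (le_max_left b a), ← cp_up _ i (le_max_right b a) v, eq_comm, cp_def, cp_def,
      ← sub_eq_zero, ← map_sub] at hy
    have := (c.G_kil h.loc i _ _ hy).map (cokernel.π u)
    rw [map_sub, k, sub_zero, up_nat, up_nat] at this
    exact this.of_up (le_max_right b a)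
  exact ⟨n, fun a ha v => exact_apply (ShortComplex.exact_cokernel u) a _ (hn a ha v)⟩

theorem IsTilde.frac {u : N ⟶ c.G E} (h : c.IsTilde u) (hN : grA W N) (hM : grA W M)
    (w : M ⟶ c.G E) : ∃ (Z : (GrS ν)) (s : Z ⟶ M) (f : Z ⟶ N), grA W Z ∧
      (∃ n : ℤ, ∀ a ≥ n, Function.Bijective (s.app ⟨a⟩)) ∧ s ≫ w = f ≫ u := by
  let d : M ⊞ N ⟶ c.G E := biprod.fst ≫ w - biprod.snd ≫ u
  have hd (a : ℤ) (z) : d.app ⟨a⟩ z = w.app ⟨a⟩ ((biprod.fst : M ⊞ N ⟶ M).app ⟨a⟩ z) -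
    u.app ⟨a⟩ ((biprod.snd : M ⊞ N ⟶ N).app ⟨a⟩ z) := rfl
  obtain ⟨n, hn⟩ := h.inj_large hN
  obtain ⟨m, hm⟩ := h.surj_large hM.2 w
  refine ⟨kernel d, kernel.ι d ≫ biprod.fst, kernel.ι d ≫ biprod.snd,
    (grA W).prop_of_mono (kernel.ι d) (grA_split biprod.inl biprod.inr biprod.fst biprod.snd
      biprod.total hM hN), ⟨max n m, fun a ha => ⟨?_, fun v => ?_⟩⟩, ?_⟩
  · rw [injective_iff_map_eq_zero]
    intro z hz
    have h1 : (biprod.fst : M ⊞ N ⟶ M).app ⟨a⟩ ((kernel.ι d).app ⟨a⟩ z) = 0 := hz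
    have h2 : d.app ⟨a⟩ ((kernel.ι d).app ⟨a⟩ z) = 0 := congr(($(kernel.condition d)).app ⟨a⟩ z)
    rw [hd, h1, map_zero, zero_sub, neg_eq_zero] at h2
    have h3 : (biprod.inl : M ⟶ M ⊞ N).app ⟨a⟩ ((biprod.fst : M ⊞ N ⟶ M).app ⟨a⟩
        ((kernel.ι d).app ⟨a⟩ z)) + (biprod.inr : N ⟶ M ⊞ N).app ⟨a⟩
        ((biprod.snd : M ⊞ N ⟶ N).app ⟨a⟩ ((kernel.ι d).app ⟨a⟩ z)) = (kernel.ι d).app ⟨a⟩ z :=
      congr(($(biprod.total (X := M) (Y := N))).app ⟨a⟩ ((kernel.ι d).app ⟨a⟩ z))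
    rw [h1, hn a ((le_max_left _ _).trans ha) _ h2, map_zero, map_zero, add_zero] at h3
    exact app_injective (kernel.ι d) ⟨a⟩ (h3.symm.trans (map_zero _).symm)
  · obtain ⟨y, hy⟩ := hm a ((le_max_right _ _).trans ha) v
    have e1 : (biprod.fst : M ⊞ N ⟶ M).app ⟨a⟩ ((biprod.inl : M ⟶ M ⊞ N).app ⟨a⟩ v) = v :=
      congr(($(biprod.inl_fst (X := M) (Y := N))).app ⟨a⟩ v)
    have e2 : (biprod.snd : M ⊞ N ⟶ N).app ⟨a⟩ ((biprod.inl : M ⟶ M ⊞ N).app ⟨a⟩ v) = 0 :=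
      congr(($(biprod.inl_snd (X := M) (Y := N))).app ⟨a⟩ v)
    have e3 : (biprod.fst : M ⊞ N ⟶ M).app ⟨a⟩ ((biprod.inr : N ⟶ M ⊞ N).app ⟨a⟩ y) = 0 :=
      congr(($(biprod.inr_fst (X := M) (Y := N))).app ⟨a⟩ y)
    have e4 : (biprod.snd : M ⊞ N ⟶ N).app ⟨a⟩ ((biprod.inr : N ⟶ M ⊞ N).app ⟨a⟩ y) = y :=
      congr(($(biprod.inr_snd (X := M) (Y := N))).app ⟨a⟩ y)
    obtain ⟨z, hz⟩ := exact_apply (ShortComplex.exact_kernel d) a
      ((biprod.inl : M ⟶ M ⊞ N).app ⟨a⟩ v + (biprod.inr : N ⟶ M ⊞ N).app ⟨a⟩ y)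
      ((hd a _).trans (by
        simp only [map_add, e1, e2, e3, e4, add_zero, zero_add, hy, sub_self]))
    refine ⟨z, (congrArg ((biprod.fst : M ⊞ N ⟶ M).app ⟨a⟩) hz).trans ?_⟩
    rw [map_add, e1, e3, add_zero]
  · rw [Category.assoc, Category.assoc, ← sub_eq_zero, ← Preadditive.comp_sub, kernel.condition]

variable (c) in
/-- the twisting sheaves exist -/
structure Ok : Prop where
  hW : IH W
  hL : ∀ a : ℤ, ∃ (L : Y.Modules) (x : (c.G L).obj ⟨a⟩), c.Triv x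

namespace Ok

variable (o : c.Ok)

/-- the sheaf of a graded module -/
noncomputable def til (M : GA W) : Y.Modules := (c.exists_tilde o.hW o.hL M.property).choose

/-- the canonical map -/
noncomputable def tu (M : GA W) : M.obj ⟶ c.G (o.til M) :=
  (c.exists_tilde o.hW o.hL M.property).choose_spec.choose

theorem tilde (M : GA W) : c.IsTilde (o.tu M) :=
  (c.exists_tilde o.hW o.hL M.property).choose_spec.choose_spec

/-- the map of sheaves induced by a map of graded modules -/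
noncomputable def tm {M N : GA W} (f : M ⟶ N) : o.til M ⟶ o.til N :=
  ((o.tilde M).exists_hom (f.hom ≫ o.tu N)).choose

theorem tu_tm {M N : GA W} (f : M ⟶ N) : o.tu M ≫ c.Gm (o.tm f) = f.hom ≫ o.tu N :=
  ((o.tilde M).exists_hom (f.hom ≫ o.tu N)).choose_spec

/-- the functor `M ↦ M^~` -/
noncomputable def pi : GA W ⥤ Coh Y where
  obj M := ⟨o.til M, (o.tilde M).fp M.property.2⟩
  map f := ObjectProperty.homMk (o.tm f)
  map_id M := ObjectProperty.hom_ext _ ((o.tilde M).hom_ext ((o.tu_tm _).trans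
    ((Category.id_comp _).trans (Category.comp_id _).symm)))
  map_comp {M N P} f g := ObjectProperty.hom_ext _ ((o.tilde M).hom_ext (by
    change _ ≫ c.Gm (o.tm _) = _ ≫ c.Gm (o.tm f ≫ o.tm g)
    rw [Gm_comp, ← Category.assoc, tu_tm, tu_tm, Category.assoc, tu_tm, ← Category.assoc]
    rfl))

theorem pi_add : o.pi.Additive where
  map_add {M N f g} := ObjectProperty.hom_ext _ ((o.tilde M).hom_ext (by
    change _ ≫ c.Gm (o.tm _) = _ ≫ c.Gm (o.tm f + o.tm g)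
    rw [Gm_add, Preadditive.comp_add, tu_tm, tu_tm, tu_tm, ← Preadditive.add_comp]
    rfl))

theorem pi_lin [Linear ℂ Y.Modules] (hl : ∀ (F : Y.Modules) (t : ℂ) (U : Y.Opens) (s : Γ(F, U)),
    (t • 𝟙 F).app U s = rf (V := U) le_top (c.κ t) • s) : o.pi.Linear ℂ where
  map_smul {M N} f t := ObjectProperty.hom_ext _ ((o.tilde M).hom_ext (by
    change _ ≫ c.Gm (o.tm _) = _ ≫ c.Gm (t • o.tm f)
    have : t • o.tm f = o.tm f ≫ (t • 𝟙 _) := by rw [Linear.comp_smul, Category.comp_id]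
    rw [this, Gm_comp, ← Category.assoc, tu_tm, tu_tm]
    refine cp_ext fun i a v => ?_
    rw [cp_Gm, hl, ← c.evC, cp_def, cp_def, ← pr_smul]
    exact congrArg _ (map_smul ((o.tu N).app ⟨a⟩).hom t (f.hom.app ⟨a⟩ v))))

theorem pi_iso {M : GA W} {E : Coh Y} {u : M.obj ⟶ c.G E.obj} (h : c.IsTilde u) :
    Nonempty (o.pi.obj M ≅ E) :=
  ((o.tilde M).nonempty_iso h).map (ObjectProperty.isoMk _)

theorem pi_essSurj : o.pi.EssSurj := ⟨fun E => by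
  obtain ⟨M, u, h⟩ := c.exists_module o.hW (fun i => loc_of_fp E.property (c.aff i))
    fun i => finite_of_fp E.property (c.aff i)
  exact ⟨M, o.pi_iso h⟩⟩

theorem pi_loc : o.pi.IsLocalization (evIso W) := by
  have := o.pi_essSurj
  refine isLoc_of_frac _ _ (fun M N f hf => ?_) (fun M N φ => ?_) fun M N f g h => ?_
  · obtain ⟨n, hn⟩ := (evIso_iff f).1 hf
    have : IsIso ((coh Y).ι.map (o.pi.map f)) :=
      (o.tilde M).isIso ((o.tilde N).comp f.hom hn) (o.tu_tm f)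
    exact isIso_of_fully_faithful (coh Y).ι _
  · obtain ⟨ψ, rfl⟩ : ∃ ψ : o.til M ⟶ o.til N, φ = ObjectProperty.homMk ψ := ⟨φ.hom, rfl⟩
    obtain ⟨Z, s, f, h1, h2, h3⟩ := (o.tilde N).frac N.property M.property (o.tu M ≫ c.Gm ψ)
    refine ⟨⟨Z, h1⟩, ObjectProperty.homMk s, ObjectProperty.homMk f, (evIso_iff _).2 h2,
      ObjectProperty.hom_ext _ ((o.tilde ⟨Z, h1⟩).hom_ext ?_)⟩
    change _ ≫ c.Gm (o.tm _ ≫ ψ) = _ ≫ c.Gm (o.tm _)
    rw [Gm_comp, ← Category.assoc, tu_tm, tu_tm, Category.assoc]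
    exact h3
  · have h1 : o.tm f = o.tm g := congrArg (·.hom) h
    have h2 : (f - g).hom ≫ o.tu N = 0 := by
      change (f.hom - g.hom) ≫ _ = 0
      rw [Preadditive.sub_comp, ← tu_tm, ← tu_tm, h1, sub_self]
    obtain ⟨n, hn⟩ := (o.tilde N).inj_large N.property
    refine ⟨kernel (f - g), kernel.ι _, (evIso_iff _).2 ⟨n, fun a ha =>
      ⟨GA_app_injective W _ a, fun v => GA_exact_apply W (ShortComplex.exact_kernel (f - g)) a v
        (hn a ha _ congr(($h2).app ⟨a⟩ v))⟩⟩, ?_⟩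
    rw [← sub_eq_zero, ← Preadditive.comp_sub, kernel.condition]

end Ok

end Chart

end Vale.Agent.P287Z.Gr

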