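import Vale.Agent.P287Z.Gr.Act

/-!
# Homogeneous polynomials: API (P294-L)
-/

open CategoryTheory Limits MvPolynomial

namespace Vale.Agent.P287Z.Gr

variable {ν : ℕ}

open Vale.Agent.P294.V

variable {n m : ℤ} {f g : (Sn ν)}

theorem hga_zero (n : ℤ) : Hg n (0 : (Sn ν)) := isWeightedHomogeneous_zero _ _ _

theorem hga_add (hf : Hg n f) (hg : Hg n g) : Hg n (f + g) := IsWeightedHomogeneous.add hf hg

theorem hga_smul (c : ℂ) (hf : Hg n f) : Hg n (c • f) := by
  rw [hg_iff] at hf ⊢
  exact fun m hm => hf m (MvPolynomial.support_smul hm)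

theorem hga_neg (hf : Hg n f) : Hg n (-f) := by
  rw [← neg_one_smul ℂ f]
  exact hga_smul _ hf

theorem hga_sub (hf : Hg n f) (hg : Hg n g) : Hg n (f - g) := by
  rw [sub_eq_add_neg]
  exact hga_add hf (hga_neg hg)

theorem hga_mul (hf : Hg n f) (hg : Hg m g) : Hg (n + m) (f * g) :=
  IsWeightedHomogeneous.mul hf hg

theorem hga_mul' {k : ℤ} (hf : Hg n f) (hg : Hg m g) (h : n + m = k) : Hg k (f * g) :=
  h ▸ hga_mul hf hg

theorem hga_sum {ι : Type*} (s : Finset ι) {F : ι → (Sn ν)}
    (h : ∀ i ∈ s, Hg n (F i)) : Hg n (∑ i ∈ s, F i) := by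
  classical
  induction s using Finset.induction_on with
  | empty => rw [Finset.sum_empty]; exact hga_zero n
  | insert i s hi ih =>
    rw [Finset.sum_insert hi]
    exact hga_add (h i (Finset.mem_insert_self _ _))
      (ih fun j hj => h j (Finset.mem_insert_of_mem hj))

theorem hga_one : Hg 0 (1 : (Sn ν)) := isWeightedHomogeneous_one _ _

theorem hga_X (i : Fin ν) : Hg 2 (X i : (Sn ν)) :=
  isWeightedHomogeneous_X _ _ _

/-- odd or negative degree -/
theorem hga_eq_zero (hf : Hg n f) (h : ∀ k : ℕ, 2 * (k : ℤ) ≠ n) : f = 0 := by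
  by_contra h0
  obtain ⟨m, hm⟩ := MvPolynomial.support_nonempty.2 h0
  exact h _ ((hg_iff.1 hf) m hm)

theorem hga_neg_eq_zero (hf : Hg n f) (h : n < 0) : f = 0 :=
  hga_eq_zero hf fun k hk => by lia

theorem hga_odd_eq_zero (hf : Hg n f) (h : ¬ 2 ∣ n) : f = 0 :=
  hga_eq_zero hf fun k hk => h ⟨k, hk.symm⟩

theorem hga_inj (hf : Hg n f) (hf' : Hg m f) (h : n ≠ m) : f = 0 := by
  by_contra h0
  obtain ⟨k, hk⟩ := MvPolynomial.support_nonempty.2 h0
  exact h ((hg_iff.1 hf k hk).symm.trans (hg_iff.1 hf' k hk))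

/-- the homogeneous part of charge `n` -/
noncomputable def hpart (n : ℤ) (f : (Sn ν)) : (Sn ν) :=
  ∑ m ∈ f.support, if 2 * (m.degree : ℤ) = n then monomial m (f.coeff m) else 0

theorem coeff_hpart (n : ℤ) (f : (Sn ν)) (k : Fin ν →₀ ℕ) :
    (hpart n f).coeff k = if 2 * (k.degree : ℤ) = n then f.coeff k else 0 := by
  classical
  rw [hpart, coeff_sum]
  by_cases hk : k ∈ f.support
  · rw [Finset.sum_eq_single_of_mem k hk]
    · split_ifs <;> simp
    · intro m _ hm
      split_ifs
      · rw [coeff_monomial, if_neg hm]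
      · rfl
  · rw [notMem_support_iff.1 hk, ite_self]
    refine Finset.sum_eq_zero fun m hm => ?_
    split_ifs
    · rw [coeff_monomial, if_neg (fun h : m = k => hk (h ▸ hm))]
    · rfl

theorem hga_hpart (n : ℤ) (f : (Sn ν)) : Hg n (hpart n f) := by
  rw [hg_iff]
  intro m hm
  rw [mem_support_iff, coeff_hpart] at hm
  by_contra h
  exact hm (if_neg h)

theorem hpart_eq_self (hf : Hg n f) : hpart n f = f := by
  ext m
  rw [coeff_hpart]
  split_ifs with h
  · rfl
  · by_contra h'
    exact h ((hg_iff.1 hf) m (mem_support_iff.2 fun h'' => h' h''.symm))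

theorem hpart_mul (hf : Hg n f) (g : (Sn ν)) (k : ℤ) :
    hpart k (f * g) = f * hpart (k - n) g := by
  classical
  ext m
  rw [coeff_hpart, coeff_mul, coeff_mul]
  split_ifs with h
  · refine Finset.sum_congr rfl fun x hx => ?_
    rw [coeff_hpart]
    by_cases h0 : f.coeff x.1 = 0
    · rw [h0, zero_mul, zero_mul]
    · have h1 := (hg_iff.1 hf) x.1 (mem_support_iff.2 h0)
      have h2 : x.1 + x.2 = m := Finset.mem_antidiagonal.1 hx
      rw [if_pos]
      rw [← h, ← h1, ← h2, map_add, Nat.cast_add]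
      ring
  · symm
    refine Finset.sum_eq_zero fun x hx => ?_
    rw [coeff_hpart]
    by_cases h0 : f.coeff x.1 = 0
    · rw [h0, zero_mul]
    · have h1 := (hg_iff.1 hf) x.1 (mem_support_iff.2 h0)
      have h2 : x.1 + x.2 = m := Finset.mem_antidiagonal.1 hx
      rw [if_neg, mul_zero]
      intro h3
      apply h
      rw [← h2, map_add, Nat.cast_add, mul_add, h1, h3]
      ring

/-- a homogeneous multiple of a homogeneous `W` has a homogeneous quotient -/
theorem exists_hg_of_eq_mul {W : Sn ν} {k : ℤ} (hW : Hg k W) (hf : Hg n f)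
    (h : f = W * g) : ∃ g', Hg (n - k) g' ∧ f = W * g' :=
  ⟨hpart (n - k) g, hga_hpart _ _, by rw [← hpart_mul hW, ← h, hpart_eq_self hf]⟩

theorem hpart_add (k : ℤ) (f g : (Sn ν)) :
    hpart k (f + g) = hpart k f + hpart k g := by
  ext m
  rw [coeff_add, coeff_hpart, coeff_hpart, coeff_hpart, coeff_add]
  split_ifs <;> simp

theorem hpart_sum {ι : Type*} (s : Finset ι) (F : ι → (Sn ν)) (k : ℤ) :
    hpart k (∑ i ∈ s, F i) = ∑ i ∈ s, hpart k (F i) := by
  classical
  induction s using Finset.induction_on with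
  | empty => simp [hpart]
  | insert i s hi ih => rw [Finset.sum_insert hi, Finset.sum_insert hi, hpart_add, ih]

theorem act_hpart (M : GrS ν) (f : Sn ν) (a b : ℤ) :
    act M (hpart (2 * (b - a)) f) a b = act M f a b := by
  have h1 : (hpart (2 * (b - a)) f).support ⊆ f.support := by
    intro m hm
    rw [mem_support_iff, coeff_hpart] at hm
    rw [mem_support_iff]
    intro h0
    rw [h0, ite_self] at hm
    exact hm rfl
  rw [act_eq_of_subset M _ _ _ h1, act_eq]
  refine Finset.sum_congr rfl fun m _ => ?_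
  rw [coeff_hpart]
  split_ifs with h
  · rfl
  · rw [mon_of_ne M m (fun h' => h (by rw [← h']; ring)), smul_zero, smul_zero]

/-- homogeneous ideals -/
def IH (W : Ideal (Sn ν)) : Prop := ∀ f ∈ W, ∀ k : ℤ, hpart k f ∈ W

end Vale.Agent.P287Z.Gr

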