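import Vale.Agent.P294Z.Exist
import Vale.Agent.P287Z.Gr.Free
import Vale.Agent.P287Z.Gr.B1b

/-!
# The standard charts of a hypersurface in `ℙ⁴`, and the graded module of a sheaf
-/

open CategoryTheory Limits AlgebraicGeometry TopologicalSpace Opposite MvPolynomial

namespace Vale.Agent.P287Z.Gr

variable {ν : ℕ}

open Vale.Agent.P294Z Vale.Agent.P294.V

/-- the charts `x_i ≠ 0` and the dehomogenization maps -/
structure Chart (Y : Scheme.{0}) (W : Ideal (Sn ν)) where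
  U : Fin ν → Y.Opens
  ev : ∀ i, (Sn ν) →+* Γ(Y, U i)
  κ : ℂ →+* Γ(Y, ⊤)
  aff : ∀ i, IsAffineOpen (U i)
  cov : ⨆ i, U i = ⊤
  evC : ∀ i c, ev i (C c) = rf le_top (κ c)
  evX : ∀ i, ev i (X i) = 1
  bo : ∀ i j, Y.basicOpen (ev i (X j)) = U i ⊓ U j
  gl : ∀ i j k {V : Y.Opens} (hi : V ≤ U i) (hj : V ≤ U j),
    rf hj (ev j (X k)) = rf hj (ev j (X i)) * rf hi (ev i (X k))
  surj : ∀ i, Function.Surjective (ev i)
  evW : ∀ i (n : ℤ) f, Hg n f → f ∈ W → ev i f = 0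
  ker : ∀ i (n : ℤ) f, Hg (2 * n) f → ev i f = 0 → ∃ k : ℕ, X i ^ k * f ∈ W

theorem hg_X_pow (i : Fin ν) (k : ℕ) {n : ℤ} (h : n = k) : Hg (2 * n) (X i ^ k : (Sn ν)) := by
  subst h
  induction k with
  | zero => simpa using hga_one
  | succ k ih =>
    rw [pow_succ]
    exact hga_mul' ih (hga_X i) (by push_cast; ring)

namespace Chart

variable {Y : Scheme.{0}} {W : Ideal (Sn ν)} (c : Chart Y W) {V T : Y.Opens}

/-- the unit `x_i / x_j` -/
noncomputable def τ (i j : Fin ν) (hi : V ≤ c.U i) (hj : V ≤ c.U j) : Γ(Y, V)ˣ where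
  val := rf hj (c.ev j (X i))
  inv := rf hi (c.ev i (X j))
  val_inv := by rw [← c.gl i j j hi hj, c.evX, map_one]
  inv_val := by rw [mul_comm, ← c.gl i j j hi hj, c.evX, map_one]

theorem τ_val (i j : Fin ν) (hi : V ≤ c.U i) (hj : V ≤ c.U j) :
    (c.τ i j hi hj : Γ(Y, V)) = rf hj (c.ev j (X i)) := rfl

theorem τ_self (i : Fin ν) (hi hi' : V ≤ c.U i) : c.τ i i hi hi' = 1 :=
  Units.ext (by rw [τ_val, c.evX, map_one, Units.val_one])

theorem τ_mul (i j k : Fin ν) (hi : V ≤ c.U i) (hj : V ≤ c.U j) (hk : V ≤ c.U k) :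
    c.τ j k hj hk * c.τ i j hi hj = c.τ i k hi hk :=
  Units.ext (c.gl j k i hj hk).symm

theorem rf_τ (i j : Fin ν) (hi : V ≤ c.U i) (hj : V ≤ c.U j) (h : T ≤ V) (a : ℤ) :
    rf h ((c.τ i j hi hj ^ a : Γ(Y, V)ˣ) : Γ(Y, V)) =
      (c.τ i j (h.trans hi) (h.trans hj) ^ a : Γ(Y, T)ˣ) := by
  have : Units.map (rf h).toMonoidHom (c.τ i j hi hj) = c.τ i j (h.trans hi) (h.trans hj) :=
    Units.ext (rf_rf _ _ _)
  rw [← this, ← map_zpow]
  rfl

theorem gl_mon (i j : Fin ν) (hi : V ≤ c.U i) (hj : V ≤ c.U j) (m : Fin ν →₀ ℕ) (t : ℂ) :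
    rf hj (c.ev j (monomial m t)) =
      (c.τ i j hi hj : Γ(Y, V)) ^ m.degree * rf hi (c.ev i (monomial m t)) := by
  simp only [monomial_eq, Finsupp.prod, map_mul, map_prod, map_pow, c.evC, rf_rf,
    Finsupp.degree_apply]
  rw [mul_left_comm, ← Finset.prod_pow_eq_pow_sum, ← Finset.prod_mul_distrib]
  refine congrArg _ (Finset.prod_congr rfl fun k _ => ?_)
  rw [c.gl i j k hi hj, mul_pow, τ_val]

theorem gl_hg (i j : Fin ν) (hi : V ≤ c.U i) (hj : V ≤ c.U j) {n : ℤ} {f : (Sn ν)}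
    (hf : Hg (2 * n) f) :
    rf hj (c.ev j f) = (c.τ i j hi hj ^ n : Γ(Y, V)ˣ) * rf hi (c.ev i f) := by
  rw [← support_sum_monomial_coeff f, map_sum, map_sum, map_sum, map_sum, Finset.mul_sum]
  refine Finset.sum_congr rfl fun m hm => ?_
  have : n = m.degree := by have := hg_iff.1 hf m hm; lia
  rw [c.gl_mon i j hi hj, this, zpow_natCast, Units.val_pow_eq_pow_val]

theorem surj_hg (i : Fin ν) (r : Γ(Y, c.U i)) : ∃ (n : ℕ) (f : (Sn ν)), Hg (2 * (n : ℤ)) f ∧
    c.ev i f = r := by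
  obtain ⟨f, rfl⟩ := c.surj i r
  induction f using MvPolynomial.induction_on with
  | C t => exact ⟨0, C t, hga_monomial t (by simp), rfl⟩
  | add f g hf hg =>
    obtain ⟨n, f', h1, h2⟩ := hf
    obtain ⟨m, g', h3, h4⟩ := hg
    refine ⟨n + m, X i ^ m * f' + X i ^ n * g', hga_add
      (hga_mul' (hg_X_pow i m rfl) h1 (by push_cast; ring))
      (hga_mul' (hg_X_pow i n rfl) h3 (by push_cast; ring)), ?_⟩
    simp only [map_add, map_mul, map_pow, c.evX, one_pow, one_mul, h2, h4]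
  | mul_X f j hf =>
    obtain ⟨n, f', h1, h2⟩ := hf
    exact ⟨n + 1, f' * X j, hga_mul' h1 (hga_X j) (by push_cast; ring), by
      rw [map_mul, map_mul, h2]⟩

theorem noeth (i : Fin ν) : IsNoetherianRing Γ(Y, c.U i) :=
  isNoetherianRing_of_surjective _ _ (c.ev i) (c.surj i)

/-- families of sections over the charts -/
def GT (E : Y.Modules) : Type := ∀ i, Γ(E, c.U i)

variable (E : Y.Modules) {E' E'' : Y.Modules}

noncomputable instance : AddCommGroup (c.GT E) := inferInstanceAs (AddCommGroup (∀ i, Γ(E, c.U i)))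

noncomputable instance : Module ℂ (c.GT E) :=
  letI (i : Fin ν) : Module ℂ Γ(E, c.U i) := Module.compHom _ ((c.ev i).comp C)
  inferInstanceAs (Module ℂ (∀ i, Γ(E, c.U i)))

theorem GT_smul (t : ℂ) (s : c.GT E) (i : Fin ν) : (t • s) i = c.ev i (C t) • s i := rfl

theorem GT_add (s s' : c.GT E) (i : Fin ν) : (s + s') i = s i + s' i := rfl

/-- multiplication by a polynomial -/
noncomputable def mulS (f : (Sn ν)) : c.GT E →ₗ[ℂ] c.GT E where
  toFun s i := c.ev i f • s i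
  map_add' s s' := funext fun i => smul_add (c.ev i f) (s i) (s' i)
  map_smul' t s := funext fun i => smul_comm (c.ev i f) (c.ev i (C t)) (s i)

/-- global sections of `E(a)` -/
def Gs (a : ℤ) : Submodule ℂ (c.GT E) where
  carrier := {s | ∀ i j (V : Y.Opens) (hi : V ≤ c.U i) (hj : V ≤ c.U j),
    rs E hj (s j) = ((c.τ i j hi hj ^ a : Γ(Y, V)ˣ) : Γ(Y, V)) • rs E hi (s i)}
  zero_mem' i j V hi hj := (map_zero _).trans ((smul_zero _).symm.trans
    (congrArg _ (map_zero (rs E hi)).symm))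
  add_mem' {s s'} h h' i j V hi hj := by
    rw [GT_add, GT_add, map_add, map_add, h i j V hi hj, h' i j V hi hj, smul_add]
  smul_mem' t s h i j V hi hj := by
    rw [GT_smul, GT_smul, rs_smul, rs_smul, h i j V hi hj, c.evC, c.evC, rf_rf, rf_rf, smul_comm]

theorem mulS_mem {a b : ℤ} {f : (Sn ν)} (hf : Hg (2 * (b - a)) f) (s : c.GT E) (hs : s ∈ c.Gs E a) :
    c.mulS E f s ∈ c.Gs E b := fun i j V hi hj => by
  change rs E hj (c.ev j f • s j) = _ • rs E hi (c.ev i f • s i)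
  rw [rs_smul, rs_smul, hs i j V hi hj, c.gl_hg i j hi hj hf, smul_smul, smul_smul,
    mul_right_comm, ← Units.val_mul, ← zpow_add, sub_add_cancel]

/-- the graded module of a sheaf -/
noncomputable def G : (GrS ν) where
  obj a := ModuleCat.of ℂ (c.Gs E a.deg)
  map {a b} m := ModuleCat.ofHom ((c.mulS E (monomial m.1 1)).restrict
    (c.mulS_mem E (hga_monomial 1 (by have := m.2; lia))))
  map_id a := by
    ext s
    refine funext fun i => ?_
    change c.ev i (monomial 0 1) • s.1 i = s.1 i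
    rw [← C_apply, C_1, map_one, one_smul]
  map_comp m m' := by
    ext s
    refine funext fun i => ?_
    change c.ev i (monomial (m.1 + m'.1) 1) • s.1 i =
      c.ev i (monomial m'.1 1) • c.ev i (monomial m.1 1) • s.1 i
    rw [smul_smul, ← map_mul, monomial_mul, one_mul, add_comm]

variable {E}

/-- the component of a global section of `E(a)` in the chart `i` -/
noncomputable def pr (i : Fin ν) (a : ℤ) : (c.G E).obj ⟨a⟩ →+ Γ(E, c.U i) where
  toFun s := (s : c.Gs E a).1 i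
  map_zero' := rfl
  map_add' _ _ := rfl

theorem pr_smul (i : Fin ν) (a : ℤ) (t : ℂ) (s : (c.G E).obj ⟨a⟩) :
    c.pr i a (t • s) = c.ev i (C t) • c.pr i a s := rfl

theorem pr_ext {a : ℤ} {s s' : (c.G E).obj ⟨a⟩} (h : ∀ i, c.pr i a s = c.pr i a s') : s = s' :=
  Subtype.ext (funext h)

theorem pr_gl {a : ℤ} (s : (c.G E).obj ⟨a⟩) (i j : Fin ν) (hi : V ≤ c.U i) (hj : V ≤ c.U j) :
    rs E hj (c.pr j a s) = ((c.τ i j hi hj ^ a : Γ(Y, V)ˣ) : Γ(Y, V)) • rs E hi (c.pr i a s) :=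
  (s : c.Gs E a).2 i j V hi hj

theorem pr_act (i : Fin ν) {a b : ℤ} {f : (Sn ν)} (hf : Hg (2 * (b - a)) f) (s : (c.G E).obj ⟨a⟩) :
    c.pr i b (act (c.G E) f a b s) = c.ev i f • c.pr i a s := by
  rw [act_apply_eq, map_sum]
  conv_rhs => rw [← support_sum_monomial_coeff f, map_sum, Finset.sum_smul]
  refine Finset.sum_congr rfl fun m hm => ?_
  rw [pr_smul, mon_apply_of_eq m (by have := hg_iff.1 hf m hm; lia)]
  change _ • c.ev i (monomial m 1) • c.pr i a s = _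
  rw [smul_smul, ← map_mul, C_mul_monomial, mul_one]

theorem killed_G (hW : IH W) : killed W (c.G E) := fun f hf a b => by
  ext s
  refine c.pr_ext (E := E) fun i => ?_
  rw [← act_hpart]
  refine (c.pr_act i (hga_hpart _ _) s).trans ?_
  rw [c.evW i _ _ (hga_hpart _ _) (hW f hf _), zero_smul]
  rfl

/-- the map of graded modules induced by a map of sheaves -/
noncomputable def Gm (φ : E ⟶ E') : c.G E ⟶ c.G E' where
  app a := ModuleCat.ofHom (X := c.Gs E a.deg) (Y := c.Gs E' a.deg)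
    { toFun s := ⟨fun i => φ.app _ (s.1 i), fun i j V hi hj => by
        rw [← app_rs, ← app_rs, s.2 i j V hi hj, Scheme.Modules.Hom.app_smul]⟩
      map_add' s s' := Subtype.ext (funext fun i => map_add (φ.app (c.U i)).hom (s.1 i) (s'.1 i))
      map_smul' t s := Subtype.ext (funext fun i => φ.app_smul (c.ev i (C t)) (s.1 i)) }
  naturality a b m := by
    ext s
    exact Subtype.ext (funext fun i => φ.app_smul (c.ev i (monomial m.1 1)) (s.1 i))

theorem pr_Gm (φ : E ⟶ E') (i : Fin ν) (a : ℤ) (s : (c.G E).obj ⟨a⟩) :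
    c.pr i a ((c.Gm φ).app ⟨a⟩ s) = φ.app _ (c.pr i a s) := rfl

theorem Gm_id : c.Gm (𝟙 E) = 𝟙 _ := rfl

theorem Gm_comp (φ : E ⟶ E') (ψ : E' ⟶ E'') : c.Gm (φ ≫ ψ) = c.Gm φ ≫ c.Gm ψ := rfl

theorem Gm_add (φ ψ : E ⟶ E') : c.Gm (φ + ψ) = c.Gm φ + c.Gm ψ := rfl

end Chart

end Vale.Agent.P287Z.Gr

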