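import Vale.Agent.P287Z.Gr.Tilde

/-!
# Existence of the sheaf of a graded module, and of a graded module for a coherent sheaf
-/

open CategoryTheory Limits AlgebraicGeometry TopologicalSpace Opposite MvPolynomial

universe u

namespace Vale.Agent.P287Z.Gr

variable {ν : ℕ}

open Vale.Agent.P294Z Vale.Agent.P294.V

namespace Chart

variable {Y : Scheme.{0}} {W : Ideal (Sn ν)} (c : Chart Y W) {V T : Y.Opens} {E E' E'' : Y.Modules}
  {M N : (GrS ν)}

theorem bo_l (i j : Fin ν) : Y.basicOpen (c.ev i (X j)) ≤ c.U i := Y.basicOpen_le _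

theorem bo_r (i j : Fin ν) : Y.basicOpen (c.ev i (X j)) ≤ c.U j := (c.bo i j).le.trans inf_le_right

theorem G_kil (hl : ∀ i, Loc E (c.U i)) (i : Fin ν) (a : ℤ) (s : (c.G E).obj ⟨a⟩)
    (hs : c.pr i a s = 0) : Kil (c.G E) i a s := by
  choose n hn using fun j => (hl j).un' (c.ev j (X i)) (c.pr j a s) (by
    rw [c.pr_gl s i j (c.bo_r j i), hs, map_zero, smul_zero])
  obtain ⟨N, hN⟩ := Finite.exists_le n
  refine ⟨a + N, by lia, c.pr_ext fun j => ?_⟩
  rw [up, c.pr_act j (hg_up i (by lia)), map_pow, hn j _ ((hN j).trans (by lia)), map_zero]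

theorem G_surj (hl : ∀ i, Loc E (c.U i)) (i : Fin ν) (σ : Γ(E, c.U i)) :
    ∃ (a : ℤ) (s : (c.G E).obj ⟨a⟩), c.pr i a s = σ := by
  choose n hn using fun j => (hl j).ex' (c.ev j (X i)) (rs E (c.bo_r j i) σ)
  obtain ⟨N, hN⟩ := Finite.exists_le n
  choose t ht using fun j => hn j N (hN j)
  have ht' (j : Fin ν) (V : Y.Opens) (hi : V ≤ c.U i) (hj : V ≤ c.U j) :
      rs E hj (t j) = (c.τ i j hi hj : Γ(Y, V)) ^ N • rs E hi σ := by
    have := congrArg (rs E ((le_inf hj hi).trans (c.bo j i).ge)) (ht j)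
    rwa [rs_rs, rs_smul, rs_rs, map_pow, rf_rf] at this
  choose m hm using fun x : Fin ν × Fin ν => (hl x.1).un₂ (c.ev x.1 (X x.2)) (c.ev x.1 (X i))
    (rs E (c.bo_r x.1 x.2) (t x.2) -
      rf (c.bo_r x.1 x.2) (c.ev x.2 (X x.1)) ^ N • rs E (c.bo_l x.1 x.2) (t x.1))
    inf_le_left le_rfl (by
      have hi := (inf_le_right : Y.basicOpen (c.ev x.1 (X x.2)) ⊓ _ ≤ _).trans (c.bo_r x.1 i)
      rw [map_sub, rs_smul, rs_rs, rs_rs, ht' _ _ hi, ht' _ _ hi, smul_smul, map_pow, τ_val,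
        τ_val, rf_rf, ← mul_pow, ← c.gl, sub_self])
  obtain ⟨m', hm'⟩ := Finite.exists_le m
  refine ⟨N + m', (⟨fun j => c.ev j (X i) ^ m' • t j, fun j k V hj hk => ?_⟩ : c.Gs E (N + m')),
    ?_⟩
  · have := congrArg (rs E ((le_inf hj hk).trans (c.bo j k).ge)) (hm (j, k) m' (hm' _))
    rw [rs_smul, map_sub, rs_smul, rs_rs, rs_rs, map_zero, map_pow, map_pow, rf_rf, rf_rf,
      smul_sub, sub_eq_zero] at this
    rw [rs_smul, rs_smul, map_pow, map_pow, c.gl j k i hj hk, mul_pow, mul_smul, this,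
      ← Nat.cast_add, zpow_natCast, Units.val_pow_eq_pow_val, τ_val, pow_add, mul_comm, mul_smul,
      smul_comm (rf hj _ ^ m')]
  · change c.ev i (X i) ^ m' • t i = σ
    have := ht' i _ le_rfl le_rfl
    rw [rs_self, rs_self, τ_self, Units.val_one, one_pow, one_smul] at this
    rw [c.evX, one_pow, one_smul, this]

theorem tilde_G (hl : ∀ i, Loc E (c.U i)) : c.IsTilde (𝟙 (c.G E)) :=
  ⟨hl, c.G_surj hl, c.G_kil hl⟩

theorem cp_desc {ι : Type} [Fintype ι] {q : ι → ℤ} (hq : ∀ k, q k = 2 * (q k / 2)) (hW : IH W)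
    (x : ∀ k, (c.G E).obj ⟨q k / 2⟩) (i : Fin ν) {a : ℤ} {v : ι → (Sn ν)}
    (h : ∀ k, Hg (2 * a - q k) (v k)) :
    c.cp (desc (c.killed_G hW) x) i a (FrO.mk W v h) = ∑ k, c.ev i (v k) • c.pr i _ (x k) := by
  rw [cp_def, desc_mk, map_sum]
  refine Finset.sum_congr rfl fun k _ => c.pr_act i ?_ _
  have := h k
  rwa [show 2 * a - q k = 2 * (a - q k / 2) by have := hq k; lia] at this

theorem desc_surj {ι : Type} [Fintype ι] {q : ι → ℤ} (hq : ∀ k, q k = 2 * (q k / 2))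
    (hW : IH W) (x : ∀ k, (c.G E).obj ⟨q k / 2⟩) (i : Fin ν) (r : ι → Γ(Y, c.U i)) :
    ∃ a v, c.cp (desc (c.killed_G hW) x) i a v = ∑ k, r k • c.pr i _ (x k) := by
  choose n f hf hf' using fun k => c.surj_hg i (r k)
  obtain ⟨a, ha⟩ := Finite.exists_le fun k => n k + q k / 2
  refine ⟨a, FrO.mk W (fun k => X i ^ (a - (n k + q k / 2)).toNat * f k) fun k =>
    hga_mul' (hg_up i (ha k)) (hf k) (by have := hq k; lia), ?_⟩
  rw [c.cp_desc hq hW]
  simp only [map_mul, map_pow, c.evX, one_pow, one_mul, hf']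

theorem exists_module (hW : IH W) (hl : ∀ i, Loc E (c.U i))
    (hf : ∀ i, Module.Finite Γ(Y, c.U i) Γ(E, c.U i)) :
    ∃ (M : GA W) (u : M.obj ⟶ c.G E), c.IsTilde u := by
  choose r σ hσ using fun i => Module.Finite.exists_fin (R := Γ(Y, c.U i)) (M := Γ(E, c.U i))
  choose a s hs using fun k : Σ i, Fin (r i) => c.G_surj hl k.1 (σ k.1 k.2)
  let q (k : Σ i, Fin (r i)) : ℤ := 2 * a k
  have hq (k) : q k = 2 * (q k / 2) := by simp only [q]; lia
  have ha (k) : a k ≤ q k / 2 := by simp only [q]; lia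
  let x (k) : (c.G E).obj ⟨q k / 2⟩ := up _ k.1 _ _ (s k)
  have hx (k : Σ i, Fin (r i)) : c.pr k.1 _ (x k) = σ k.1 k.2 :=
    (cp_up (𝟙 _) k.1 (ha k) (s k)).trans (hs k)
  let w := desc (c.killed_G hW) x
  refine ⟨⟨image w, killed_of_mono (image.ι w) (c.killed_G hW),
    fg_of_epi (factorThruImage w) (FrO.fg W)⟩, image.ι w, hl, fun i z => ?_, fun i b v hv => ?_⟩
  · have hz : z ∈ Submodule.span Γ(Y, c.U i) (Set.range (σ i)) := by rw [hσ]; trivial
    obtain ⟨ρ, rfl⟩ := (Submodule.mem_span_range_iff_exists_fun _).1 hz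
    obtain ⟨b, v, hv⟩ := c.desc_surj hq hW x i fun k => if h : k.1 = i then ρ (h ▸ k.2) else 0
    refine ⟨b, (factorThruImage w).app ⟨b⟩ v, ?_⟩
    rw [← cp_comp, image.fac, hv, Fintype.sum_sigma, Finset.sum_eq_single i]
    · exact Finset.sum_congr rfl fun k _ => by rw [dif_pos rfl, hx ⟨i, k⟩]
    · intro j _ hj
      exact Finset.sum_eq_zero fun k _ => by rw [dif_neg hj, zero_smul]
    · simp
  · obtain ⟨d, h1, h2⟩ := c.G_kil hl i b _ hv
    exact ⟨d, h1, app_injective (image.ι w) ⟨d⟩ (by rw [up_nat, map_zero]; exact h2)⟩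

/-- the section `x` of `L(a)` trivializes `L(a)` -/
def Triv {L : Y.Modules} {a : ℤ} (x : (c.G L).obj ⟨a⟩) : Prop :=
  ∀ (i : Fin ν) (V : Y.Opens) (h : V ≤ c.U i),
    Function.Bijective fun r : Γ(Y, V) => r • rs L h (c.pr i a x)

theorem fn_un {U : Y.Opens} (hU : IsAffineOpen U) (g r : Γ(Y, U))
    (h : rf (Y.basicOpen_le g) r = 0) : ∃ n : ℕ, g ^ n * r = 0 := by
  have := hU.isLocalization_basicOpen g
  obtain ⟨⟨_, n, rfl⟩, hn⟩ := (IsLocalization.map_eq_zero_iff (Submonoid.powers g)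
    Γ(Y, Y.basicOpen g) r).1 h
  exact ⟨n, hn⟩

variable {c} in
theorem Triv.loc {L : Y.Modules} {a : ℤ} {x : (c.G L).obj ⟨a⟩} (h : c.Triv x) (i : Fin ν) :
    Loc L (c.U i) := by
  refine ⟨fun g s => ?_, fun g t ht => ?_⟩
  · obtain ⟨r, rfl⟩ := (h i _ (Y.basicOpen_le g)).2 s
    obtain ⟨n, z, hz⟩ := fn_ex (c.aff i) g r
    exact ⟨n, z • c.pr i a x, by rw [rs_smul, ← hz, mul_smul]⟩
  · obtain ⟨r, rfl⟩ := (h i _ le_rfl).2 t
    dsimp only at ht ⊢
    rw [rs_smul, rs_rs] at ht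
    obtain ⟨n, hn⟩ := fn_un (c.aff i) g r ((h i _ (Y.basicOpen_le g)).1
      (ht.trans (zero_smul _ _).symm))
    exact ⟨n, by rw [smul_smul, hn, zero_smul]⟩

theorem tilde_free {ι : Type} [Fintype ι] {q : ι → ℤ} (hq : ∀ k, q k = 2 * (q k / 2))
    (hW : IH W) (hL : ∀ a : ℤ, ∃ (L : Y.Modules) (x : (c.G L).obj ⟨a⟩), c.Triv x) :
    ∃ (E : Y.Modules) (u : FrO W q ⟶ c.G E), c.IsTilde u := by
  classical
  choose L x hx using fun k => hL (q k / 2)
  have : HasFiniteBiproducts Y.Modules := Abelian.hasFiniteBiproducts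
  let y (k : ι) : (c.G (⨁ L)).obj ⟨q k / 2⟩ := (c.Gm (biproduct.ι L k)).app _ (x k)
  refine ⟨⨁ L, desc (c.killed_G hW) y, fun i => Loc.split (biproduct.ι L) (biproduct.π L)
    biproduct.total fun k => (hx k).loc i, fun i s => ?_, fun i a v hv => ?_⟩
  · choose r hr using fun k => (hx k i _ le_rfl).2 ((biproduct.π L k).app _ s)
    obtain ⟨a, v, hv⟩ := c.desc_surj hq hW y i r
    refine ⟨a, v, hv.trans ?_⟩
    rw [← split_sec (biproduct.ι L) (biproduct.π L) biproduct.total s]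
    refine Finset.sum_congr rfl fun k _ => ?_
    rw [← hr k, rs_self, Scheme.Modules.Hom.app_smul]
    rfl
  · obtain ⟨v, h, rfl⟩ := FrO.mk_surj W v
    rw [c.cp_desc hq hW] at hv
    have h1 (k : ι) : c.ev i (v k) = 0 := by
      have := congrArg ((biproduct.π L k).app (c.U i)) hv
      rw [map_sum, map_zero, Finset.sum_eq_single k] at this
      · rw [Scheme.Modules.Hom.app_smul, c.pr_Gm, ← app_comp, biproduct.ι_π_self, app_id] at this
        refine (hx k i _ le_rfl).1 ?_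
        simp only [rs_self, this, zero_smul]
      · intro j _ hj
        rw [Scheme.Modules.Hom.app_smul, c.pr_Gm, ← app_comp, biproduct.ι_π_ne _ hj, app_zero,
          smul_zero]
      · simp
    choose n hn using fun k => c.ker i (a - q k / 2) (v k) (by
      have := h k
      rwa [show 2 * a - q k = 2 * (a - q k / 2) by have := hq k; lia] at this) (h1 k)
    obtain ⟨N, hN⟩ := Finite.exists_le n
    refine ⟨a + N, by lia, ?_⟩
    rw [up, FrO.act_mk W (hg_up i (by lia)) h fun k => hga_mul' (hg_up i (a := a) (b := a + N)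
      (by lia)) (h k) (by ring), FrO.mk_eq_zero]
    intro k
    rw [show (a + N - a).toNat = (N - n k) + n k by have := hN k; lia, pow_add, mul_assoc]
    exact W.mul_mem_left _ (hn k)

variable {c} in
theorem IsTilde.coker {M' : (GrS ν)} {u : N ⟶ c.G E} {u' : M' ⟶ c.G E'} (h : c.IsTilde u)
    (h' : c.IsTilde u') (f : N ⟶ M') (p : M' ⟶ M) [Epi p] (w : f ≫ p = 0)
    (he : (ShortComplex.mk f p w).Exact) :
    ∃ (Q : Y.Modules) (v : M ⟶ c.G Q), c.IsTilde v := by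
  obtain ⟨φ, hφ⟩ := h.exists_hom (f ≫ u')
  have hc := fun i => coker_aff (w := cokernel.condition φ) (c.aff i) (cokernelIsCokernel φ)
    (h.loc i) (h'.loc i)
  obtain ⟨v, hv⟩ : ∃ v : M ⟶ c.G (cokernel φ), p ≫ v = u' ≫ c.Gm (cokernel.π φ) :=
    ⟨he.desc (u' ≫ c.Gm (cokernel.π φ)) (by
      change f ≫ _ = 0
      rw [← Category.assoc, ← hφ, Category.assoc, ← Gm_comp, cokernel.condition]
      rfl), he.g_desc _ _⟩
  refine ⟨_, v, fun i => (hc i).1, fun i s => ?_, fun i a z hz => ?_⟩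
  · obtain ⟨s, rfl⟩ := (hc i).2.1 s
    obtain ⟨a, z, rfl⟩ := h'.surj i s
    exact ⟨a, p.app ⟨a⟩ z, by rw [← cp_comp, hv, cp_Gm]⟩
  · obtain ⟨z, rfl⟩ := app_surjective p ⟨a⟩ z
    rw [← cp_comp, hv, cp_Gm] at hz
    obtain ⟨t, ht⟩ := (hc i).2.2 _ hz
    obtain ⟨b, y, rfl⟩ := h.surj i t
    rw [← cp_Gm, hφ, cp_comp, ← cp_up _ i (le_max_left b a), ← cp_up _ i (le_max_right b a) z,
      eq_comm, ← sub_eq_zero, ← map_sub] at ht
    have := (h'.inj _ _ _ ht).map p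
    rw [map_sub, up_nat, up_nat, show p.app ⟨b⟩ (f.app ⟨b⟩ y) = 0 from congr(($w).app ⟨b⟩ y),
      map_zero, sub_zero] at this
    exact this.of_up (le_max_right b a)

theorem exists_free (_hW : IH W) (hM : grA W M) : ∃ (r : ℕ) (q : Fin r → ℤ),
    (∀ k, q k = 2 * (q k / 2)) ∧ ∃ p : FrO W q ⟶ M, Epi p := by
  obtain ⟨r, d, g, hg⟩ := hM.2
  have e (k) : 2 * d k / 2 = d k := by lia
  let x (k) : M.obj ⟨2 * d k / 2⟩ := act M 1 _ _ (g k)
  refine ⟨r, fun k => 2 * d k, fun k => by lia, desc hM.1 x,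
    epi_of_surjective _ fun a v => ?_⟩
  have : Submodule.span ℂ {w | ∃ (i : Fin r) (m : (⟨d i⟩ : (Dg ν)) ⟶ ⟨a⟩), M.map m (g i) = w} ≤
      LinearMap.range ((desc (q := fun k => 2 * d k) hM.1 x).app ⟨a⟩).hom := by
    refine Submodule.span_le.2 ?_
    rintro _ ⟨k, ⟨m, hm⟩, rfl⟩
    refine ⟨act _ (monomial m 1) _ a (gen W (fun k => 2 * d k) k), ?_⟩
    refine (act_natural_apply _ _ _ _ _).trans ?_
    rw [desc_gen hM.1 x k (by lia), ← act_mul_apply _ (by rw [e, sub_self]; exact hga_one),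
      one_mul, act_monomial, one_smul, mon_apply_of_eq m hm]
  exact this (hg a v)

theorem exists_tilde (hW : IH W)
    (hL : ∀ a : ℤ, ∃ (L : Y.Modules) (x : (c.G L).obj ⟨a⟩), c.Triv x) (hM : grA W M) :
    ∃ (E : Y.Modules) (u : M ⟶ c.G E), c.IsTilde u := by
  obtain ⟨r, q, hq, p, hp⟩ := exists_free hW hM
  obtain ⟨r', q', hq', p', hp'⟩ := exists_free hW
    ((grA W).prop_of_mono (kernel.ι p) ((frOK W hW).mem q))
  obtain ⟨E, u, hu⟩ := c.tilde_free hq hW hL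
  obtain ⟨E', u', hu'⟩ := c.tilde_free hq' hW hL
  refine hu'.coker hu (p' ≫ kernel.ι p) p (by simp) (exact_of_apply fun a v hv => ?_)
  obtain ⟨z, hz⟩ := exact_apply (ShortComplex.exact_kernel p) a v hv
  obtain ⟨y, rfl⟩ := app_surjective p' ⟨a⟩ z
  exact ⟨y, hz⟩

end Chart

end Vale.Agent.P287Z.Gr

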