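import Vale.Agent.P287Z.Gr.Defs

/-!
# Free graded modules and the complexes attached to a graded matrix factorization
-/

set_option linter.unusedSectionVars false

open CategoryTheory Limits MvPolynomial

namespace Vale.Agent.P287Z.Gr

variable {ν : ℕ}

open Vale.Agent.P294.V

section Free

variable {ι κ μ : Type} [Fintype ι] [Fintype κ] [Fintype μ]

/-- The part of degree `a` of the free graded `ℂ[x₀,…,x₄]`-module with basis vectors of (doubled)
degrees `q i`. -/
def frS (ν : ℕ) (q : ι → ℤ) (a : ℤ) : Submodule ℂ (ι → (Sn ν)) where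
  carrier := {v | ∀ i, Hg (2 * a - q i) (v i)}
  zero_mem' := fun _ => isWeightedHomogeneous_zero _ _ _
  add_mem' := fun h h' i => (h i).add (h' i)
  smul_mem' := fun c _ h i => Submodule.smul_mem (weightedHomogeneousSubmodule ℂ _ _) c (h i)

theorem hg_monomial (m : Fin ν →₀ ℕ) (c : ℂ) : Hg (2 * (m.degree : ℤ)) (monomial m c) := by
  refine isWeightedHomogeneous_monomial _ _ _ ?_
  rw [Finsupp.weight_apply, Finsupp.sum, Finsupp.degree_apply, Nat.cast_sum, Finset.mul_sum]
  refine Finset.sum_congr rfl fun i _ => ?_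
  rw [nsmul_eq_mul, mul_comm]

theorem hg_mul {a b c : ℤ} {f g : (Sn ν)} (hf : Hg a f) (hg : Hg b g)
    (h : a + b = c) : Hg c (f * g) := by
  subst h
  exact hf.mul hg

theorem hg_sum {a : ℤ} {f : ι → (Sn ν)} (h : ∀ i, Hg a (f i)) :
    Hg a (∑ i, f i) :=
  Submodule.sum_mem (weightedHomogeneousSubmodule ℂ _ _) fun i _ => h i

/-- multiplication by a monomial -/
noncomputable def frMon (q : ι → ℤ) {a b : ℤ} (m : Fin ν →₀ ℕ) (h : a + (m.degree : ℤ) = b) :
    frS ν q a →ₗ[ℂ] frS ν q b where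
  toFun v := ⟨fun i => monomial m 1 * v.1 i, fun i => hg_mul (hg_monomial m 1) (v.2 i) (by
    rw [← h]; ring)⟩
  map_add' u v := Subtype.ext (funext fun i => mul_add (monomial m 1) (u.1 i) (v.1 i))
  map_smul' c v := Subtype.ext (funext fun i => by
    change monomial m 1 * (c • v.1 i) = c • (monomial m 1 * v.1 i)
    rw [mul_smul_comm])

variable (W : Ideal (Sn ν))

/-- the vectors divisible by `W` -/
def frW (q : ι → ℤ) (a : ℤ) : Submodule ℂ (frS ν q a) where
  carrier := {v | ∀ i, v.1 i ∈ W}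
  zero_mem' := fun _ => W.zero_mem
  add_mem' := fun h h' i => W.add_mem (h i) (h' i)
  smul_mem' := fun c v h i => by
    change c • v.1 i ∈ W
    rw [MvPolynomial.smul_eq_C_mul]
    exact W.mul_mem_left _ (h i)

theorem frMon_mem (q : ι → ℤ) {a b : ℤ} (m : Fin ν →₀ ℕ) (h : a + (m.degree : ℤ) = b) :
    frW W q a ≤ (frW W q b).comap (frMon q m h) :=
  fun _ hv i => W.mul_mem_left _ (hv i)

/-- The free graded module over `A = ℂ[x₀,…,x₄]/(W)` with basis vectors of (doubled) degrees `q i`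
(basis vectors with `q i` odd are ignored), as a graded `ℂ[x₀,…,x₄]`-module. -/
noncomputable def FrO (q : ι → ℤ) : (GrS ν) where
  obj a := ModuleCat.of ℂ (frS ν q a.deg ⧸ frW W q a.deg)
  map {a b} m := ModuleCat.ofHom ((frW W q a.deg).mapQ (frW W q b.deg) (frMon q m.1 m.2)
    (frMon_mem W q m.1 m.2))
  map_id a := by
    ext v
    change Submodule.Quotient.mk _ = Submodule.Quotient.mk v
    congr 1
    refine Subtype.ext (funext fun i => ?_)
    change monomial 0 1 * v.1 i = v.1 i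
    rw [← C_apply, C_1, one_mul]
  map_comp {a b c} m m' := by
    ext v
    change Submodule.Quotient.mk _ = Submodule.Quotient.mk _
    congr 1
    refine Subtype.ext (funext fun i => ?_)
    change monomial (m.1 + m'.1) 1 * v.1 i = monomial m'.1 1 * (monomial m.1 1 * v.1 i)
    rw [← mul_assoc, monomial_mul, one_mul, add_comm]

/-- the class of a homogeneous vector -/
noncomputable def FrO.mk {q : ι → ℤ} {a : ℤ} (v : ι → (Sn ν)) (h : ∀ i, Hg (2 * a - q i) (v i)) :
    (FrO W q).obj ⟨a⟩ := Submodule.Quotient.mk (⟨v, h⟩ : frS ν q a)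

theorem FrO.mk_surj {q : ι → ℤ} {a : ℤ} (x : (FrO W q).obj ⟨a⟩) : ∃ v h, FrO.mk W v h = x := by
  obtain ⟨v, rfl⟩ := Submodule.Quotient.mk_surjective _ x
  exact ⟨v.1, v.2, rfl⟩

theorem FrO.mk_eq {q : ι → ℤ} {a : ℤ} {v w : ι → (Sn ν)}
    {h : ∀ i, Hg (2 * a - q i) (v i)} {h' : ∀ i, Hg (2 * a - q i) (w i)} :
    FrO.mk W v h = FrO.mk W w h' ↔ ∀ i, v i - w i ∈ W :=
  Submodule.Quotient.eq _

/-- matrices of homogeneous polynomials -/
def HgM (q : ι → ℤ) (q' : κ → ℤ) (f : Matrix κ ι (Sn ν)) : Prop :=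
  ∀ i j, Hg (q j - q' i) (f i j)

theorem HgM.mulVec {q : ι → ℤ} {q' : κ → ℤ} {f : Matrix κ ι (Sn ν)}
    (hf : HgM q q' f) {a : ℤ} {v : ι → (Sn ν)} (hv : ∀ i, Hg (2 * a - q i) (v i)) :
    ∀ i, Hg (2 * a - q' i) (f.mulVec v i) := fun i => by
  rw [Matrix.mulVec, dotProduct]
  exact hg_sum fun j => hg_mul (hf i j) (hv j) (by ring)

theorem mulVec_mul_left (f : Matrix κ ι (Sn ν)) (p : (Sn ν))
    (v : ι → (Sn ν)) : f.mulVec (fun j => p * v j) = fun i => p * f.mulVec v i := by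
  funext i
  rw [Matrix.mulVec, Matrix.mulVec, dotProduct, dotProduct, Finset.mul_sum]
  exact Finset.sum_congr rfl fun j _ => mul_left_comm _ _ _

/-- action of a matrix on homogeneous vectors -/
noncomputable def frMat {q : ι → ℤ} {q' : κ → ℤ} (f : Matrix κ ι (Sn ν))
    (hf : HgM q q' f) (a : ℤ) : frS ν q a →ₗ[ℂ] frS ν q' a where
  toFun v := ⟨f.mulVec v.1, hf.mulVec v.2⟩
  map_add' u v := Subtype.ext (Matrix.mulVec_add f u.1 v.1)
  map_smul' c v := Subtype.ext (Matrix.mulVec_smul f c v.1)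

theorem frMat_mem {q : ι → ℤ} {q' : κ → ℤ} (f : Matrix κ ι (Sn ν))
    (hf : HgM q q' f) (a : ℤ) : frW W q a ≤ (frW W q' a).comap (frMat f hf a) :=
  fun _ hv i => W.sum_mem fun j _ => W.mul_mem_left _ (hv j)

/-- the map of free modules attached to a matrix -/
noncomputable def matO {q : ι → ℤ} {q' : κ → ℤ} (f : Matrix κ ι (Sn ν))
    (hf : HgM q q' f) : FrO W q ⟶ FrO W q' where
  app a := ModuleCat.ofHom ((frW W q a.deg).mapQ (frW W q' a.deg) (frMat f hf a.deg)
    (frMat_mem W f hf a.deg))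
  naturality a b m := by
    ext x
    obtain ⟨v, rfl⟩ := Submodule.Quotient.mk_surjective _ x
    change Submodule.Quotient.mk _ = Submodule.Quotient.mk _
    congr 1
    exact Subtype.ext (mulVec_mul_left f (monomial m.1 1) v.1)

@[simp] theorem matO_mk {q : ι → ℤ} {q' : κ → ℤ} (f : Matrix κ ι (Sn ν))
    (hf : HgM q q' f) {a : ℤ} (v : ι → (Sn ν)) (h : ∀ i, Hg (2 * a - q i) (v i)) :
    (matO W f hf).app ⟨a⟩ (FrO.mk W v h) = FrO.mk W (f.mulVec v) (hf.mulVec h) := rfl

theorem matO_comp {q : ι → ℤ} {q' : κ → ℤ} {q'' : μ → ℤ}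
    (f : Matrix κ ι (Sn ν)) (hf : HgM q q' f)
    (g : Matrix μ κ (Sn ν)) (hg : HgM q' q'' g) (hgf : HgM q q'' (g * f)) :
    matO W f hf ≫ matO W g hg = matO W (g * f) hgf := by
  ext a x
  obtain ⟨v, rfl⟩ := Submodule.Quotient.mk_surjective _ x
  change Submodule.Quotient.mk _ = Submodule.Quotient.mk _
  congr 1
  exact Subtype.ext (Matrix.mulVec_mulVec v.1 g f)

theorem HgM.mul {q : ι → ℤ} {q' : κ → ℤ} {q'' : μ → ℤ}
    {f : Matrix κ ι (Sn ν)} (hf : HgM q q' f)
    {g : Matrix μ κ (Sn ν)} (hg : HgM q' q'' g) : HgM q q'' (g * f) :=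
  fun i j => by
    rw [Matrix.mul_apply]
    exact hg_sum fun k => hg_mul (hg i k) (hf k j) (by ring)

/-- a matrix divisible by `W` acts as zero -/
theorem matO_eq_zero {q : ι → ℤ} {q' : κ → ℤ} (f : Matrix κ ι (Sn ν))
    (hf : HgM q q' f) (h : ∀ i j, f i j ∈ W) : matO W f hf = 0 := by
  ext a x
  obtain ⟨v, rfl⟩ := Submodule.Quotient.mk_surjective _ x
  change Submodule.Quotient.mk (frMat f hf a.deg v) = 0
  rw [Submodule.Quotient.mk_eq_zero]
  intro i
  exact W.sum_mem fun j _ => W.mul_mem_right _ (h i j)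

end Free

/-! ## In the category of finitely generated graded `A`-modules -/

/-- the free modules are finitely generated and killed by `W` (proved for `W` homogeneous of degree
`5` in block B2) -/
class FrOK (W : Ideal (Sn ν)) : Prop where
  mem : ∀ {ι : Type} [Fintype ι] (q : ι → ℤ), grA W (FrO W q)

section Cpx

variable (W : Ideal (Sn ν)) [FrOK W]

variable {ι κ μ : Type} [Fintype ι] [Fintype κ] [Fintype μ]

/-- free graded `A`-modules -/
noncomputable def FrA (q : ι → ℤ) : GA W := ⟨FrO W q, FrOK.mem q⟩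

/-- the map of free graded `A`-modules attached to a matrix -/
noncomputable def matA {q : ι → ℤ} {q' : κ → ℤ} (f : Matrix κ ι (Sn ν))
    (hf : HgM q q' f) : FrA W q ⟶ FrA W q' := ObjectProperty.homMk (matO W f hf)

theorem matA_comp {q : ι → ℤ} {q' : κ → ℤ} {q'' : μ → ℤ}
    (f : Matrix κ ι (Sn ν)) (hf : HgM q q' f)
    (g : Matrix μ κ (Sn ν)) (hg : HgM q' q'' g) :
    matA W f hf ≫ matA W g hg = matA W (g * f) (hf.mul hg) := by
  apply ObjectProperty.hom_ext
  exact matO_comp W f hf g hg _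

theorem matA_eq_zero {q : ι → ℤ} {q' : κ → ℤ} (f : Matrix κ ι (Sn ν))
    (hf : HgM q q' f) (h : ∀ i j, f i j ∈ W) : matA W f hf = 0 := by
  apply ObjectProperty.hom_ext
  exact matO_eq_zero W f hf h

end Cpx

end Vale.Agent.P287Z.Gr
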