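import Vale.Agent.P294Z.PjO
import Vale.Agent.P287Z.Gr.Exist

/-!
# The standard charts of a projective hypersurface
-/

open CategoryTheory Limits AlgebraicGeometry Opposite TopologicalSpace MvPolynomial

namespace Vale.Agent.P287Z.Gr

variable {ν : ℕ}

open Vale.Agent.P294Z Vale.Agent.P294.V

variable {A : Type} [CommRing A] [Algebra ℂ A] {𝒜 : ℕ → Submodule ℂ A} [GradedAlgebra 𝒜]
  {U V T : (Proj 𝒜).Opens}

theorem deg_of_hom {n : ℕ} {f : (Sn ν)} (h : f.IsHomogeneous n) {m : Fin ν →₀ ℕ} (hm : m ∈ f.support) :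
    m.degree = n := by
  rw [Finsupp.degree_eq_weight_one]
  exact h (mem_support_iff.1 hm)

theorem hg_of_hom {n : ℕ} {f : (Sn ν)} (h : f.IsHomogeneous n) : Hg (2 * (n : ℤ)) f :=
  hg_iff.2 fun m hm => by rw [deg_of_hom h hm]

theorem hom_of_hg {n : ℕ} {f : (Sn ν)} (h : Hg (2 * (n : ℤ)) f) : f.IsHomogeneous n := fun m hm => by
  have h1 := hg_iff.1 h m (mem_support_iff.2 hm)
  have h2 : m.degree = n := by lia
  rwa [Finsupp.degree_eq_weight_one] at h2

variable (𝒜) in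
/-- `A` is the quotient of the polynomial ring by `W` -/
structure Pres (W : Ideal (Sn ν)) (q : (Sn ν) →ₐ[ℂ] A) : Prop where
  mem : ∀ n a, a ∈ 𝒜 n ↔ ∃ f : (Sn ν), f.IsHomogeneous n ∧ q f = a
  ker : ∀ f, q f = 0 ↔ f ∈ W
  hom : IH W

namespace Pres

variable {W : Ideal (Sn ν)} {q : (Sn ν) →ₐ[ℂ] A} (P : Pres 𝒜 W q)

include P

omit [GradedAlgebra 𝒜] in
theorem X_mem (i : Fin ν) : q (X i) ∈ 𝒜 1 := (P.mem _ _).2 ⟨_, isHomogeneous_X _ _, rfl⟩

theorem exists_fr (i j : Fin ν) : ∃ r : Γ(Proj 𝒜, Proj.basicOpen 𝒜 (q (X i))),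
    toFn 𝒜 _ r = algebraMap A _ (q (X j)) * (xu (q (X i)) le_rfl ^ (-1 : ℤ) : (Fn 𝒜 _)ˣ) :=
  ((isFr_alg (P.X_mem j)).mul (isFr_xu (P.X_mem i) le_rfl (-1)) rfl).exists_toFn

/-- dehomogenization -/
noncomputable def ev (i : Fin ν) : (Sn ν) →+* Γ(Proj 𝒜, Proj.basicOpen 𝒜 (q (X i))) :=
  eval₂Hom ((rf le_top).comp (cst0 (Proj 𝒜))) fun j => (P.exists_fr i j).choose

theorem toFn_X (i j : Fin ν) (h : V ≤ Proj.basicOpen 𝒜 (q (X i))) :
    toFn 𝒜 V (rf h (P.ev i (X j))) =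
      algebraMap A _ (q (X j)) * (xu (q (X i)) h ^ (-1 : ℤ) : (Fn 𝒜 _)ˣ) := by
  rw [ev, eval₂Hom_X', ← resFn_toFn, (P.exists_fr i j).choose_spec, map_mul, res_xu, resFn_alg]

theorem ev_C (i : Fin ν) (c : ℂ) : P.ev i (C c) = rf le_top (cst0 (Proj 𝒜) c) := eval₂Hom_C _ _ _

theorem toFn_ev (i : Fin ν) {n : ℕ} {f : (Sn ν)} (hf : f.IsHomogeneous n) :
    q (X i) ^ n • toFn 𝒜 _ (P.ev i f) = algebraMap A _ (q f) := by
  have k (j) : algebraMap A _ (q (X i)) * toFn 𝒜 _ (P.ev i (X j)) = algebraMap A _ (q (X j)) := by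
    have := P.toFn_X i j le_rfl
    rw [rf_self] at this
    rw [this, mul_left_comm, alg_xu, mul_one]
  rw [← support_sum_monomial_coeff f, map_sum, map_sum, map_sum, map_sum, Finset.smul_sum]
  refine Finset.sum_congr rfl fun m hm => ?_
  rw [← deg_of_hom hf hm]
  simp only [monomial_eq, Finsupp.prod, map_mul, map_prod, map_pow, P.ev_C, toFn_cst,
    Finsupp.degree_apply, Algebra.smul_def, algHom_C]
  rw [mul_left_comm, ← Finset.prod_pow_eq_pow_sum, ← Finset.prod_mul_distrib]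
  refine congrArg _ (Finset.prod_congr rfl fun j _ => ?_)
  rw [← mul_pow, k]

theorem ev_away (i : Fin ν) {n : ℕ} {f : (Sn ν)} (hf : f.IsHomogeneous n) (h : q f ∈ 𝒜 (n • 1)) :
    P.ev i f = Proj.awayToSection 𝒜 _
      (HomogeneousLocalization.Away.mk 𝒜 (P.X_mem i) n (q f) h) := by
  refine toFn_injective (((isUnit_alg le_rfl).pow n).mul_left_cancel ?_)
  rw [← map_pow, ← Algebra.smul_def, ← Algebra.smul_def, P.toFn_ev i hf, toFn_away]

theorem away_bij (i : Fin ν) : Function.Bijective (Proj.awayToSection 𝒜 (q (X i))) :=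
  ConcreteCategory.bijective_of_isIso (Proj.basicOpenIsoAway 𝒜 _ (P.X_mem i) one_pos).hom

theorem cov : ⨆ i, Proj.basicOpen 𝒜 (q (X i)) = ⊤ := by
  refine top_le_iff.1 fun p _ => Opens.mem_iSup.2 ?_
  obtain ⟨d, a, h1, h2, h3⟩ := exists_hom p
  obtain ⟨f, hf, rfl⟩ := (P.mem _ _).1 h2
  by_contra! h
  refine h3 ?_
  rw [← support_sum_monomial_coeff f, map_sum]
  refine sum_mem fun m hm => ?_
  have h4 : m ≠ 0 := by
    rintro rfl
    exact h1.ne' ((hf (mem_support_iff.1 hm)).symm.trans (map_zero _))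
  obtain ⟨i, hi⟩ := Finsupp.ne_iff.1 h4
  obtain ⟨g, hg⟩ := X_dvd_monomial.2 (Or.inr hi : f.coeff m = 0 ∨ m i ≠ 0)
  rw [hg, map_mul]
  exact Ideal.mul_mem_right _ _ (not_not.1 (h i))

/-- the standard charts -/
noncomputable def chart : Chart (Proj 𝒜) W where
  U i := Proj.basicOpen 𝒜 (q (X i))
  ev := P.ev
  κ := cst0 (Proj 𝒜)
  aff i := Proj.isAffineOpen_basicOpen 𝒜 _ (P.X_mem i) one_pos
  cov := P.cov
  evC := P.ev_C
  evX i := toFn_injective (by
    have := P.toFn_X i i le_rfl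
    rw [rf_self] at this
    rw [this, alg_xu, map_one])
  bo i j := by
    refine le_antisymm (le_inf (Scheme.basicOpen_le _ _) fun p hp => ?_) ?_
    · have h1 := (isUnit_rf (P.ev i (X j)) le_rfl).map (toFn 𝒜 _)
      rw [P.toFn_X] at h1
      have h2 := (isUnit_of_mul_isUnit_left h1).apply ⟨p, hp⟩
      have := p.isPrime
      exact (IsLocalization.AtPrime.isUnit_to_map_iff (Lp 𝒜 p) p.asHomogeneousIdeal.toIdeal _).1 h2
    · have h1 : rf (inf_le_left : _ ⊓ Proj.basicOpen 𝒜 (q (X j)) ≤ _) (P.ev i (X j)) *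
          rf inf_le_right (P.ev j (X i)) = 1 := toFn_injective (by
        rw [map_mul, P.toFn_X, P.toFn_X, map_one, mul_mul_mul_comm, mul_comm (algebraMap A _ _),
          mul_mul_mul_comm, alg_xu, alg_xu, one_mul])
      have h2 := Scheme.basicOpen_of_isUnit _ (IsUnit.of_mul_eq_one _ h1)
      rw [basicOpen_rf] at h2
      exact h2.ge.trans inf_le_right
  gl i j k V hi hj := toFn_injective (by
    rw [map_mul, P.toFn_X, P.toFn_X, P.toFn_X, mul_comm (algebraMap A _ (q (X k))),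
      mul_comm (algebraMap A _ (q (X k))), mul_comm (algebraMap A _ (q (X i))), mul_assoc,
      ← mul_assoc (algebraMap A _ (q (X i))), alg_xu, one_mul])
  surj i r := by
    obtain ⟨z, rfl⟩ := (P.away_bij i).2 r
    obtain ⟨n, a, ha, rfl⟩ := HomogeneousLocalization.Away.mk_surjective 𝒜 (P.X_mem i) z
    obtain ⟨f, hf, rfl⟩ := (P.mem _ _).1 ha
    exact ⟨f, P.ev_away i (by simpa using hf) ha⟩
  evW i n f hf h := by
    by_cases h0 : f = 0
    · rw [h0, map_zero]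
    obtain ⟨m, hm⟩ := MvPolynomial.support_nonempty.2 h0
    rw [← hg_iff.1 hf m hm] at hf
    exact toFn_injective (((isUnit_alg le_rfl).pow m.degree).mul_left_cancel (by
      rw [← map_pow, ← Algebra.smul_def, P.toFn_ev i (hom_of_hg hf), (P.ker f).2 h, map_zero,
        map_zero, mul_zero]))
  ker i n f hf h := by
    rcases lt_or_ge n 0 with hn | hn
    · exact ⟨0, by rw [hga_neg_eq_zero hf (by lia), mul_zero]; exact W.zero_mem⟩
    lift n to ℕ using hn
    have h1 : q f ∈ 𝒜 (n • 1) := (P.mem _ _).2 ⟨f, by simpa using hom_of_hg hf, rfl⟩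
    have h2 := congrArg HomogeneousLocalization.val ((P.away_bij i).1
      (((P.ev_away i (hom_of_hg hf) h1).symm.trans h).trans (map_zero _).symm))
    rw [HomogeneousLocalization.Away.val_mk, HomogeneousLocalization.val_zero,
      Localization.mk_eq_mk', IsLocalization.mk'_eq_zero_iff] at h2
    obtain ⟨⟨_, k, rfl⟩, hk⟩ := h2
    exact ⟨k, (P.ker _).1 (by rw [map_mul, map_pow]; exact hk)⟩

end Pres

end Vale.Agent.P287Z.Gr

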