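import Vale.Agent.P287Z.Gr.PjC

/-!
# The sheaves `𝒪(n)` are trivialized on the standard charts
-/

open CategoryTheory Limits AlgebraicGeometry Opposite TopologicalSpace MvPolynomial

namespace Vale.Agent.P287Z.Gr

variable {ν : ℕ}

open Vale.Agent.P294Z Vale.Agent.P294.V

variable {A : Type} [CommRing A] [Algebra ℂ A] {𝒜 : ℕ → Submodule ℂ A} [GradedAlgebra 𝒜]
  {U V T : (Proj 𝒜).Opens} {n : ℤ}

namespace Pres

variable {W : Ideal (Sn ν)} {q : (Sn ν) →ₐ[ℂ] A} (P : Pres 𝒜 W q)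

theorem toFn_τ (i j : Fin ν) (hi : V ≤ P.chart.U i) (hj : V ≤ P.chart.U j) (a : ℤ) :
    toFn 𝒜 V ((P.chart.τ i j hi hj ^ a : Γ(Proj 𝒜, V)ˣ) : Γ(Proj 𝒜, V)) =
      ((xu (q (X i)) hi ^ a * xu (q (X j)) hj ^ (-a) : (Fn 𝒜 V)ˣ) : Fn 𝒜 V) := by
  have : Units.map (toFn 𝒜 V).toMonoidHom (P.chart.τ i j hi hj) =
      xu (q (X i)) hi * xu (q (X j)) hj ^ (-1 : ℤ) := Units.ext (P.toFn_X j i hj)
  rw [← neg_one_mul a, zpow_mul, ← mul_zpow, ← this, ← map_zpow]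
  rfl

/-- the section `x_i ^ n` of `𝒪(n)` over the chart `x_i ≠ 0` -/
noncomputable def eO (n a : ℤ) (h : a = -n) : (P.chart.G (twO 𝒜 n)).obj ⟨a⟩ :=
  (⟨fun i => secO _ (isFr_xu (P.X_mem i) le_rfl n), fun i j V hi hj => valO_ext (by
    rw [valO_smul, valO_rs, valO_rs, toFn_τ]
    refine (res_xu _ le_rfl hj n).trans (Eq.trans ?_ (congrArg _ (res_xu _ le_rfl hi n).symm))
    rw [h, ← Units.val_mul, neg_neg, mul_right_comm, ← zpow_add, neg_add_cancel, zpow_zero,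
      one_mul])⟩ :
    P.chart.Gs _ a)

theorem triv_eO (n a : ℤ) (h : a = -n) : P.chart.Triv (P.eO n a h) := fun i V hV => by
  have e (r : Γ(Proj 𝒜, V)) : valO (r • rs _ hV (P.chart.pr i a (P.eO n a h))) =
      toFn 𝒜 V r * (xu (q (X i)) hV ^ n : (Fn 𝒜 V)ˣ) := by
    rw [valO_smul, valO_rs]
    exact congrArg _ (res_xu _ le_rfl hV n)
  refine ⟨fun r r' hr => toFn_injective ((xu (q (X i)) hV ^ n).mul_left_inj.1 ?_), fun s => ?_⟩
  · rw [← e, ← e]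
    exact congrArg valO hr
  · obtain ⟨r, hr⟩ := ((isFr_valO s).mul (isFr_xu (P.X_mem i) hV (-n))
      (add_neg_cancel n).symm).exists_toFn
    refine ⟨r, valO_ext ?_⟩
    rw [e, hr, mul_assoc, ← Units.val_mul, ← zpow_add, neg_add_cancel, zpow_zero, Units.val_one,
      mul_one]

theorem hL (a : ℤ) : ∃ (L : (Proj 𝒜).Modules) (x : (P.chart.G L).obj ⟨a⟩), P.chart.Triv x :=
  ⟨_, _, P.triv_eO (-a) a (neg_neg a).symm⟩

end Pres

theorem Chart.locNoeth {Y : Scheme.{0}} {W : Ideal (Sn ν)} (c : Chart Y W) : IsLocallyNoetherian Y :=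
  isLocallyNoetherian_of_affine_cover (S := fun i => ⟨c.U i, c.aff i⟩) c.cov c.noeth

end Vale.Agent.P287Z.Gr

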