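import Vale.Agent.P287Z.Gr.Chart

/-!
# The sheaf of a graded module: characterization and universal property
-/

open CategoryTheory Limits AlgebraicGeometry TopologicalSpace Opposite MvPolynomial

namespace Vale.Agent.P287Z.Gr

variable {ν : ℕ}

open Vale.Agent.P294Z Vale.Agent.P294.V

/-- multiplication by a power of `x_i` -/
noncomputable def up (M : (GrS ν)) (i : Fin ν) (a b : ℤ) : M.obj ⟨a⟩ ⟶ M.obj ⟨b⟩ :=
  act M (X i ^ (b - a).toNat) a b

theorem hg_up (i : Fin ν) {a b : ℤ} (h : a ≤ b) : Hg (2 * (b - a)) (X i ^ (b - a).toNat : (Sn ν)) :=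
  hg_X_pow i _ (by lia)

theorem up_up {M : (GrS ν)} (i : Fin ν) {a b d : ℤ} (h : a ≤ b) (h' : b ≤ d) (v : M.obj ⟨a⟩) :
    up M i b d (up M i a b v) = up M i a d v := by
  rw [up, up, up, ← act_mul_apply _ (hg_up i h), ← pow_add,
    show (b - a).toNat + (d - b).toNat = (d - a).toNat by lia]

theorem up_nat {M N : (GrS ν)} (f : M ⟶ N) (i : Fin ν) (a b : ℤ) (v : M.obj ⟨a⟩) :
    f.app ⟨b⟩ (up M i a b v) = up N i a b (f.app ⟨a⟩ v) := act_natural_apply f _ a b v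

/-- `v` is killed by a power of `x_i` -/
def Kil (M : (GrS ν)) (i : Fin ν) (a : ℤ) (v : M.obj ⟨a⟩) : Prop := ∃ b, a ≤ b ∧ up M i a b v = 0

theorem Kil.ge {M : (GrS ν)} {i : Fin ν} {a : ℤ} {v : M.obj ⟨a⟩} (h : Kil M i a v) :
    ∃ b, a ≤ b ∧ ∀ d ≥ b, up M i a d v = 0 := by
  obtain ⟨b, h1, h2⟩ := h
  exact ⟨b, h1, fun d hd => by rw [← up_up i h1 hd, h2, map_zero]⟩

theorem Kil.of_up {M : (GrS ν)} {i : Fin ν} {a b : ℤ} {v : M.obj ⟨a⟩} (hab : a ≤ b)
    (h : Kil M i b (up M i a b v)) : Kil M i a v := by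
  obtain ⟨d, h1, h2⟩ := h
  exact ⟨d, hab.trans h1, by rw [← up_up i hab h1, h2]⟩

theorem Kil.map {M N : (GrS ν)} (f : M ⟶ N) {i : Fin ν} {a : ℤ} {v : M.obj ⟨a⟩} (h : Kil M i a v) :
    Kil N i a (f.app ⟨a⟩ v) := by
  obtain ⟨d, h1, h2⟩ := h
  exact ⟨d, h1, by rw [← up_nat, h2, map_zero]⟩

/-- a map from a finitely generated module whose values are killed by powers of the variables
vanishes in large degrees -/
theorem ev_zero {M N : (GrS ν)} (hM : fg M) (w : M ⟶ N) (h : ∀ i a v, Kil N i a (w.app ⟨a⟩ v)) :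
    ∃ n : ℤ, ∀ a ≥ n, ∀ v, w.app ⟨a⟩ v = 0 := by
  obtain ⟨r, d, g, hg⟩ := hM
  choose b hb hb' using fun (x : Fin r × Fin ν) => (h x.2 (d x.1) (g x.1)).ge
  obtain ⟨B, hB⟩ := Finite.exists_le fun x : Fin r × Fin ν => (b x - d x.1).toNat
  obtain ⟨D, hD⟩ := Finite.exists_le d
  refine ⟨D + ν * B + 1, fun a ha v => ?_⟩
  have : Submodule.span ℂ {w | ∃ (i : Fin r) (m : (⟨d i⟩ : (Dg ν)) ⟶ ⟨a⟩), M.map m (g i) = w} ≤
      LinearMap.ker (w.app ⟨a⟩).hom := by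
    refine Submodule.span_le.2 ?_
    rintro _ ⟨k, ⟨m, hm⟩, rfl⟩
    have h1 : ∃ i, B ≤ m i := by
      by_contra! h2
      have h3 : m.degree = ∑ i, m i := Finsupp.degree_eq_sum m
      have h4 := hD k
      have h5 : ∑ i, m i ≤ ∑ _i : Fin ν, B := Finset.sum_le_sum fun i _ => (h2 i).le
      rw [Finset.sum_const, Finset.card_univ, Fintype.card_fin, smul_eq_mul] at h5
      have h6 : ((m.degree : ℕ) : ℤ) ≤ ν * B := by exact_mod_cast h3.le.trans h5
      dsimp only at hm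
      lia
    obtain ⟨i, hi⟩ := h1
    have h2 : (monomial m 1 : (Sn ν)) = X i ^ B * monomial (m - Finsupp.single i B) 1 := by
      rw [X_pow_eq_monomial, monomial_mul, one_mul, add_tsub_cancel_of_le]
      exact Finsupp.single_le_iff.2 hi
    have h3 : M.map (⟨m, hm⟩ : (⟨d k⟩ : (Dg ν)) ⟶ ⟨a⟩) (g k) =
        act M (monomial m 1) (d k) a (g k) := by
      rw [act_monomial, one_smul, mon_apply_of_eq m hm]
    change w.app ⟨a⟩ (M.map (⟨m, hm⟩ : (⟨d k⟩ : (Dg ν)) ⟶ ⟨a⟩) (g k)) = 0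
    have h4 := hb' (k, i) (d k + B) (by have := hB (k, i); have := hb (k, i); dsimp only at *; lia)
    rw [up, show (d k + B - d k).toNat = B by lia] at h4
    rw [h3, act_natural_apply, h2, act_mul_apply (b := d k + B) _ (hg_X_pow i B (by ring)), h4,
      map_zero]
  exact this (hg a v)

namespace Chart

variable {Y : Scheme.{0}} {W : Ideal (Sn ν)} (c : Chart Y W) {V T : Y.Opens} {E E' E'' : Y.Modules}
  {M N : (GrS ν)}

/-- the component in the chart `i` -/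
noncomputable def cp (u : M ⟶ c.G E) (i : Fin ν) (a : ℤ) : M.obj ⟨a⟩ →+ Γ(E, c.U i) :=
  (c.pr i a).comp (u.app ⟨a⟩).hom.toAddMonoidHom

variable {c}

theorem cp_def (u : M ⟶ c.G E) (i : Fin ν) (a : ℤ) (v : M.obj ⟨a⟩) :
    c.cp u i a v = c.pr i a (u.app ⟨a⟩ v) := rfl

theorem cp_comp (f : N ⟶ M) (u : M ⟶ c.G E) (i : Fin ν) (a : ℤ) (v : N.obj ⟨a⟩) :
    c.cp (f ≫ u) i a v = c.cp u i a (f.app ⟨a⟩ v) := rfl

theorem cp_Gm (u : M ⟶ c.G E) (φ : E ⟶ E') (i : Fin ν) (a : ℤ) (v : M.obj ⟨a⟩) :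
    c.cp (u ≫ c.Gm φ) i a v = φ.app _ (c.cp u i a v) := rfl

theorem cp_act (u : M ⟶ c.G E) (i : Fin ν) {a b : ℤ} {f : (Sn ν)} (hf : Hg (2 * (b - a)) f)
    (v : M.obj ⟨a⟩) : c.cp u i b (act M f a b v) = c.ev i f • c.cp u i a v := by
  rw [cp_def, act_natural_apply, c.pr_act i hf, cp_def]

theorem cp_up (u : M ⟶ c.G E) (i : Fin ν) {a b : ℤ} (h : a ≤ b) (v : M.obj ⟨a⟩) :
    c.cp u i b (up M i a b v) = c.cp u i a v := by
  rw [up, cp_act u i (hg_up i h), map_pow, c.evX, one_pow, one_smul]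

theorem cp_ext {u u' : M ⟶ c.G E} (h : ∀ i a v, c.cp u i a v = c.cp u' i a v) : u = u' := by
  ext a v
  exact c.pr_ext (E := E) (a := a.deg) fun i => h i a.deg v

theorem cp_kil (u : M ⟶ c.G E) {i : Fin ν} {a : ℤ} {v : M.obj ⟨a⟩} (h : Kil M i a v) :
    c.cp u i a v = 0 := by
  obtain ⟨b, h1, h2⟩ := h
  rw [← cp_up u i h1, h2, map_zero]

variable (c) in
/-- `E` is the sheaf of the graded module `M` -/
structure IsTilde (u : M ⟶ c.G E) : Prop where
  loc : ∀ i, Loc E (c.U i)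
  surj : ∀ i s, ∃ a v, c.cp u i a v = s
  inj : ∀ i a v, c.cp u i a v = 0 → Kil M i a v

namespace IsTilde

variable {u : M ⟶ c.G E} (h : c.IsTilde u)

include h

theorem hom_ext {φ ψ : E ⟶ E'} (e : u ≫ c.Gm φ = u ≫ c.Gm ψ) : φ = ψ :=
  hom_ext_cover c.aff c.cov h.loc fun i s => by
    obtain ⟨a, v, rfl⟩ := h.surj i s
    rw [← cp_Gm, ← cp_Gm, e]

theorem wd (u' : M ⟶ c.G E') {i : Fin ν} {a b : ℤ} {v : M.obj ⟨a⟩} {w : M.obj ⟨b⟩}
    (e : c.cp u i a v = c.cp u i b w) : c.cp u' i a v = c.cp u' i b w := by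
  rw [← cp_up _ i (le_max_left a b), ← cp_up _ i (le_max_right a b) w, ← sub_eq_zero,
    ← map_sub] at e ⊢
  exact cp_kil u' (h.inj _ _ _ e)

theorem exists_hom (u' : M ⟶ c.G E') : ∃ φ : E ⟶ E', u ≫ c.Gm φ = u' := by
  choose a v hv using h.surj
  have k (i b w) : c.cp u' i _ (v i (c.cp u i b w)) = c.cp u' i b w := h.wd u' (hv i _)
  let ψ (i : Fin ν) : Γ(E, c.U i) →ₗ[Γ(Y, c.U i)] Γ(E', c.U i) :=
    { toFun s := c.cp u' i _ (v i s)
      map_add' s s' := by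
        obtain ⟨b, w, rfl⟩ := h.surj i s
        obtain ⟨b', w', rfl⟩ := h.surj i s'
        rw [k, k, ← cp_up u i (le_max_left b b'), ← cp_up u i (le_max_right b b') w',
          ← cp_up u' i (le_max_left b b') w, ← cp_up u' i (le_max_right b b') w', ← map_add, k,
          map_add]
      map_smul' r s := by
        obtain ⟨b, w, rfl⟩ := h.surj i s
        obtain ⟨n, f, hf, rfl⟩ := c.surj_hg i r
        have hf' : Hg (2 * (b + n - b)) f := by rwa [add_sub_cancel_left]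
        rw [k, RingHom.id_apply, ← cp_act u i hf', k, cp_act u' i hf'] }
  obtain ⟨φ, hφ⟩ := hom_of_cover c.aff c.cov h.loc ψ fun i j s => by
    obtain ⟨b, w, rfl⟩ := h.surj i s
    refine ⟨(c.τ j i inf_le_right inf_le_left ^ b : Γ(Y, c.U i ⊓ c.U j)ˣ), c.cp u j b w,
      c.pr_gl _ j i _ _, ?_⟩
    change rs E' _ (c.cp u' i _ (v i _)) = _ • rs E' _ (c.cp u' j _ (v j _))
    rw [k, k]
    exact c.pr_gl _ j i _ _
  exact ⟨φ, cp_ext fun i b w => (hφ i _).trans (k i b w)⟩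

theorem of_iso (e : E ≅ E') : c.IsTilde (u ≫ c.Gm e.hom) where
  loc i := (h.loc i).of_iso e
  surj i s := by
    obtain ⟨a, v, hv⟩ := h.surj i (e.inv.app _ s)
    exact ⟨a, v, by rw [cp_Gm, hv, ← app_comp, e.inv_hom_id, app_id]⟩
  inj i a v hv := h.inj i a v (by
    rw [cp_Gm] at hv
    rw [← app_id (c.cp u i a v), ← e.hom_inv_id, app_comp, hv, map_zero])

theorem isIso {u' : M ⟶ c.G E'} (h' : c.IsTilde u') {φ : E ⟶ E'} (e : u ≫ c.Gm φ = u') :
    IsIso φ := by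
  obtain ⟨ψ, hψ⟩ := h'.exists_hom u
  refine ⟨ψ, h.hom_ext ?_, h'.hom_ext ?_⟩
  · rw [Gm_comp, ← Category.assoc, e, hψ, Gm_id, Category.comp_id]
  · rw [Gm_comp, ← Category.assoc, hψ, e, Gm_id, Category.comp_id]

theorem nonempty_iso {u' : M ⟶ c.G E'} (h' : c.IsTilde u') : Nonempty (E ≅ E') := by
  obtain ⟨φ, hφ⟩ := h.exists_hom u'
  have := h.isIso h' hφ
  exact ⟨asIso φ⟩

/-- composition with a map which is bijective in large degrees -/
theorem comp (f : N ⟶ M) {n : ℤ} (hf : ∀ a ≥ n, Function.Bijective (f.app ⟨a⟩)) :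
    c.IsTilde (f ≫ u) where
  loc := h.loc
  surj i s := by
    obtain ⟨a, v, rfl⟩ := h.surj i s
    obtain ⟨w, hw⟩ := (hf _ (le_max_right a n)).2 (up M i a _ v)
    exact ⟨_, w, by rw [cp_comp, hw, cp_up u i (le_max_left _ _)]⟩
  inj i a v hv := by
    obtain ⟨b, h1, h2⟩ := (h.inj i a (f.app ⟨a⟩ v) hv).ge
    refine ⟨max b n, h1.trans (le_max_left _ _), (hf _ (le_max_right b n)).1 ?_⟩
    rw [up_nat, h2 _ (le_max_left _ _), map_zero]

theorem finite (hM : fg M) (i : Fin ν) : Module.Finite Γ(Y, c.U i) Γ(E, c.U i) := by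
  obtain ⟨r, d, g, hg⟩ := hM
  refine ⟨Submodule.fg_def.2 ⟨Set.range fun k => c.cp u i _ (g k), Set.finite_range _, ?_⟩⟩
  rw [eq_top_iff]
  rintro s -
  obtain ⟨a, v, rfl⟩ := h.surj i s
  induction hg a v using Submodule.span_induction with
  | mem x hx =>
    obtain ⟨k, ⟨m, hm⟩, rfl⟩ := hx
    have h3 : M.map (⟨m, hm⟩ : (⟨d k⟩ : (Dg ν)) ⟶ ⟨a⟩) (g k) =
        act M (monomial m 1) (d k) a (g k) := by
      rw [act_monomial, one_smul, mon_apply_of_eq m hm]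
    rw [h3, cp_act u i (hga_monomial 1 (by dsimp only at hm; lia))]
    exact Submodule.smul_mem _ _ (Submodule.subset_span ⟨k, rfl⟩)
  | zero => rw [map_zero]; exact zero_mem _
  | add x y _ _ hx hy => rw [map_add]; exact add_mem hx hy
  | smul t x _ hx =>
    rw [cp_def, map_smul, pr_smul]
    exact Submodule.smul_mem _ _ hx

theorem fp (hM : fg M) : E.IsFinitePresentation :=
  fp_of_cover c.U c.cov c.aff c.noeth h.loc (h.finite hM)

end IsTilde

end Chart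

end Vale.Agent.P287Z.Gr

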